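import Crest.Agent.R312.CDefs

/-!
# R312/Top/Defs (owner helper61; do not edit): from the core step to the complete factorisation.
Route: `Top/Gcd, Minp` (field toolkit) → `Top/Cv, Prog` (core ⇒ `Prog`) → `Top/SS` (split squarefree polynomials: tail loop on minimal
polynomials) → `Top/Berl, Split` (derivative, Berlekamp) → `Top/Fac` (complete factorisation, given the table of irreducible factors of
cyclotomic polynomials) → `Top/Tab` (the table, bottom-up) → `Top/Code, Main`.
-/

set_option autoImplicit false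

open Polynomial Finset Crest.Agent.Lib.PolyTime

noncomputable section

namespace Crest.Agent.R312

variable {α α' : Type} [Enc α] [Enc α']

/-- the statement of the core -/
def CoreSt : Prop :=
  ∀ {α : Type} [Enc α] (C : α → Cv), Good C → Solv fun a (b : (C a).S1) => (C a).Nice b

/-- the statement of block `N` (non-residues) -/
def NonresSt : Prop :=
  ∀ {α : Type} [Enc α] {K : α → Type} [∀ a, Field (K a)] [∀ a, Fintype (K a)] [∀ a, Enc (K a)] {p q : α → ℕ} {ζ : ∀ a, K a},
    BR K → PT p → UN q → (PT fun a => Fintype.card (K a)) → (∀ a, (p a).Prime) → (∀ a, (q a).Prime) →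
    (∀ a, CharP (K a) (p a)) → (∀ a, ∃ k, Fintype.card (K a) = p a ^ k ∧ ¬ q a ∣ k) → DPT ζ →
    (∀ a, IsPrimitiveRoot (ζ a) (q a)) →
    Solv fun a (γ : K a) => γ ≠ 0 ∧ γ ^ ((Fintype.card (K a) - 1) / q a) ≠ 1

section
variable {F : Type} [Field F]

/-- `l` is the complete factorisation of `f` -/
def Fac (f : F[X]) (l : List F[X]) : Prop :=
  (∀ g ∈ l, g.Monic ∧ Irreducible g) ∧ Polynomial.C f.leadingCoeff * l.prod = f

/-- `g` is a proper monic factor of `f` -/
def Prp (f g : F[X]) : Prop := g.Monic ∧ g ∣ f ∧ 0 < g.natDegree ∧ g.natDegree < f.natDegree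

/-- monic, separable and split -/
def SS (h : F[X]) : Prop := h.Monic ∧ h.Separable ∧ h.Splits

/-- `d` is the normalised greatest common divisor -/
def IsG (f g d : F[X]) : Prop := (d.Monic ∨ d = 0) ∧ ∀ e, e ∣ d ↔ e ∣ f ∧ e ∣ g

/-- `μ` is the minimal polynomial of `B` modulo `m` -/
def IsMin (m B μ : F[X]) : Prop := μ.Monic ∧ ∀ g : F[X], μ ∣ g ↔ m ∣ g.comp B

/-- progress: `b` is non-constant on the roots of `h`, and idempotent or non-injective there -/
def Prog (h b : F[X]) : Prop :=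
  (∃ x y, h.IsRoot x ∧ h.IsRoot y ∧ b.eval x ≠ b.eval y) ∧
    ((∀ x, h.IsRoot x → b.eval x = 0 ∨ b.eval x = 1) ∨
      ∃ x y, h.IsRoot x ∧ h.IsRoot y ∧ x ≠ y ∧ b.eval x = b.eval y)

end

/-- the table: entry `q` is an irreducible factor of the `q`-th cyclotomic polynomial, for primes `q ≤ N`, `q ≠ p` -/
def Tab (p : ℕ) [Fact p.Prime] (N : ℕ) (t : List (ZMod p)[X]) : Prop :=
  ∀ q ≤ N, q.Prime → q ≠ p → (t.getD q 0).Monic ∧ Irreducible (t.getD q 0) ∧ t.getD q 0 ∣ cyclotomic q (ZMod p)

theorem Tab.mono {p : ℕ} [Fact p.Prime] {N M : ℕ} {t : List (ZMod p)[X]} (h : Tab p N t) (hM : M ≤ N) : Tab p M t :=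
  fun q hq => h q (hq.trans hM)

end Crest.Agent.R312
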