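import Crest.Agent.R312.Top.Gcd

/-!
# R312/Top/Berl: Berlekamp's subalgebra.
With `n = deg f`, `B = ∑_{k<n} c_k X ^ k` satisfies `B ^ p - B = ∑ c_k (X ^ (k p) - X ^ k)` (`sum_pow_char`, `ZMod.pow_card`), so `f ∣ B ^ p - B` iff `c`
is in the kernel of the rows `j ↦ (k ↦ (X ^ (k p) %ₘ f - X ^ k).coeff j)`, `j < n` (`solv_ker` with `S = K = ZMod p`, `φ = RingHom.id`, `BR.dpowmod`).
If all members `w` of the spanning list have `w k = 0` for `k ≠ 0`, every solution is constant modulo `f` (reduce `B` modulo `f` first); else output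
`ofL (List.ofFn w)` for a member with some `w k ≠ 0`, `k ≠ 0` (degree in `(0, n)`, so not constant modulo `f`).
-/

set_option autoImplicit false

open Polynomial Finset Crest.Agent.Lib.PolyTime

noncomputable section

namespace Crest.Agent.R312

variable {α α' : Type} [Enc α] [Enc α']

/-- `f = g h` with `u g + v h = 1`; `B = u g` is idempotent modulo `f`, `0` modulo `g`, `1` modulo `h` -/
theorem exists_berl {p : ℕ} [Fact p.Prime] {f : (ZMod p)[X]} (hs : f.Separable) (h0 : 0 < f.natDegree) (hi : ¬ Irreducible f) :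
    ∃ B : (ZMod p)[X], f ∣ B ^ p - B ∧ ∀ c, ¬ f ∣ B - Polynomial.C c := by
  obtain ⟨g, h, rfl, hg, hh⟩ : ∃ g h, f = g * h ∧ ¬ IsUnit g ∧ ¬ IsUnit h := by
    by_contra hc
    refine hi ⟨not_isUnit_of_natDegree_pos f h0, fun g h e => ?_⟩
    by_contra hc'
    exact hc ⟨g, h, e, fun h1 => hc' (Or.inl h1), fun h1 => hc' (Or.inr h1)⟩
  obtain ⟨u, v, huv⟩ := hs.isCoprime
  have h1 : h ∣ u * g - 1 := ⟨-v, by linear_combination huv⟩
  refine ⟨u * g, ?_, fun c hc => ?_⟩
  · obtain ⟨k, hk⟩ : ∃ k, p = k + 1 := ⟨p - 1, (Nat.sub_add_cancel (Fact.out : p.Prime).one_le).symm⟩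
    have h2 : (u * g) ^ p - u * g = u * g * ((u * g) ^ k - 1) := by
      rw [show (u * g) ^ p = (u * g) ^ (k + 1) by rw [← hk]]
      ring
    rw [h2]
    exact mul_dvd_mul (dvd_mul_left g u) (h1.trans (sub_one_dvd_pow_sub_one _ k))
  · by_cases h2 : c = 0
    · rw [h2, map_zero, sub_zero] at hc
      exact hh (isUnit_of_dvd_one ((dvd_sub_right ((dvd_mul_left h g).trans hc)).1 h1))
    · exact hg (isUnit_of_dvd_unit ((dvd_sub_right (dvd_mul_left g u)).1 ((dvd_mul_right g h).trans hc))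
        (isUnit_C.2 (Ne.isUnit h2)))

/-- `f = expand p (contract p f) = (contract p f) ^ p` (`expand_contract`, `ZMod.expand_card`) -/
theorem prp_contract {p : ℕ} [Fact p.Prime] {f : (ZMod p)[X]} (hm : f.Monic) (h0 : 0 < f.natDegree) (hd : derivative f = 0) :
    Prp f (contract p f) := by
  have hp := (Fact.out : p.Prime)
  have h1 : contract p f ^ p = f := by
    rw [← ZMod.expand_card]
    exact expand_contract p hd hp.ne_zero
  have h2 : p * (contract p f).natDegree = f.natDegree := by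
    rw [← natDegree_pow, h1]
  refine ⟨?_, (dvd_pow_self _ hp.ne_zero).trans h1.dvd, ?_, ?_⟩
  · have h3 := hm.leadingCoeff
    rwa [← h1, leadingCoeff_pow, ZMod.pow_card] at h3
  · exact Nat.pos_of_mul_pos_left (h2 ▸ h0)
  · have := hp.two_le
    nlinarith

theorem berl_ofL {T : Type} [CommRing T] {n : ℕ} (c : Fin n → T) :
    ofL (List.ofFn c) = ∑ k : Fin n, Polynomial.C (c k) * X ^ (k : ℕ) := by
  rw [ofL, List.length_ofFn, Finset.sum_range]
  refine Finset.sum_congr rfl fun k _ => ?_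
  rw [C_mul_X_pow_eq_monomial]
  simp

theorem berl_deg {T : Type} [CommRing T] {n : ℕ} (c : Fin n → T) : (ofL (List.ofFn c)).degree < n := by
  rw [berl_ofL]
  exact degree_sum_fin_lt c

theorem berl_ker {p : ℕ} [Fact p.Prime] {f : (ZMod p)[X]} (hm : f.Monic) (c : Fin f.natDegree → ZMod p) :
    f ∣ ofL (List.ofFn c) ^ p - ofL (List.ofFn c) ↔
      ∀ j : Fin f.natDegree, ∑ k : Fin f.natDegree, ((X ^ (k.val * p)) %ₘ f - X ^ k.val).coeff j * c k = 0 := by
  set R : (ZMod p)[X] := ∑ k : Fin f.natDegree, Polynomial.C (c k) * ((X ^ (k.val * p)) %ₘ f - X ^ k.val) with hR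
  have h1 : f ∣ ofL (List.ofFn c) ^ p - ofL (List.ofFn c) - R := by
    rw [berl_ofL, sum_pow_char, hR, ← Finset.sum_sub_distrib, ← Finset.sum_sub_distrib]
    refine Finset.dvd_sum fun k _ => ⟨Polynomial.C (c k) * (X ^ (k.val * p) /ₘ f), ?_⟩
    rw [mul_pow, ← C_pow, ZMod.pow_card, ← pow_mul]
    linear_combination (-Polynomial.C (c k)) * modByMonic_add_div (X ^ (k.val * p)) f
  have h2 : R.degree < f.degree := by
    refine (degree_sum_le _ _).trans_lt ((Finset.sup_lt_iff (bot_lt_iff_ne_bot.mpr (degree_ne_bot.mpr hm.ne_zero))).mpr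
      fun k _ => ?_)
    rw [← smul_eq_C_mul]
    refine (degree_smul_le _ _).trans_lt ((degree_sub_le _ _).trans_lt (max_lt (degree_modByMonic_lt _ hm) ?_))
    rw [degree_X_pow, degree_eq_natDegree hm.ne_zero]
    exact_mod_cast k.2
  have h3 : ∀ j, R.coeff j = ∑ k : Fin f.natDegree, ((X ^ (k.val * p)) %ₘ f - X ^ k.val).coeff j * c k := fun j => by
    rw [hR, finsetSum_coeff]
    exact Finset.sum_congr rfl fun k _ => by rw [coeff_C_mul, mul_comm]
  rw [dvd_iff_dvd_of_dvd_sub h1]
  refine ⟨fun h j => by rw [← h3, eq_zero_of_dvd_of_degree_lt h h2, coeff_zero], fun h => ?_⟩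
  suffices R = 0 by rw [this]; exact dvd_zero _
  ext j
  by_cases hj : j < f.natDegree
  · rw [h3]
    exact h ⟨j, hj⟩
  · refine coeff_eq_zero_of_degree_lt (h2.trans_le ?_)
    rw [degree_eq_natDegree hm.ne_zero]
    exact_mod_cast not_lt.mp hj

variable {p : α → ℕ} [∀ a, Fact (p a).Prime]

theorem solv_berl (hp : PT p) {f : ∀ a, (ZMod (p a))[X]} (hf : DPT f) (hm : ∀ a, (f a).Monic) :
    Solv fun a (o : Option (ZMod (p a))[X]) =>
      (o = none → ∀ B : (ZMod (p a))[X], f a ∣ B ^ p a - B → ∃ c, f a ∣ B - Polynomial.C c) ∧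
      ∀ B, o = some B → f a ∣ B ^ p a - B ∧ ∀ c, ¬ f a ∣ B - Polynomial.C c := by
  have hK : BR fun a => ZMod (p a) := br_zmod hp
  have hQ : PT fun a => Fintype.card (ZMod (p a)) := hp.of_eq fun a => (ZMod.card _).symm
  have hN : UN fun a => (f a).natDegree := un_natDegree hf
  have hφ : PT fun q : Σ q : Σ a, Fin (f a).natDegree, Fin (f q.1).natDegree => q.1.1 := pt_sigma_fst.comp pt_sigma_fst
  have hk : UN fun q : Σ q : Σ a, Fin (f a).natDegree, Fin (f q.1).natDegree => q.2.val := (hN.comp pt_sigma_fst).fin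
  have hK' := hK.comp hφ
  have hrows : DPT fun a => List.ofFn fun j k : Fin (f a).natDegree =>
      ((X ^ (k.val * p a)) %ₘ f a - X ^ k.val).coeff j :=
    DPT.ofFn.1 (DPT.pi hN (DPT.pi (hN.comp pt_sigma_fst) (hK'.dcoeff (hK'.poly.dsub
      (BR.dpowmod hK' hK'.dX (hf.comp hφ) (fun q => hm _) (hk.1.nat_mul (hp.comp hφ))) (hK'.poly.npow hK'.dX hk))
      (hN.fin.1.comp pt_sigma_fst))))
  obtain ⟨L, hL, eL⟩ := solv_ker (K := fun a => ZMod (p a)) hK hQ hN hrows
  have key : ∀ a (c : Fin (f a).natDegree → ZMod (p a)), c ∈ Submodule.span (ZMod (p a)) {v | v ∈ L a} ↔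
      f a ∣ ofL (List.ofFn c) ^ p a - ofL (List.ofFn c) := by
    intro a c
    have := (eL a).2 (RingHom.id _) c
    simp only [RingHom.id_apply, List.forall_mem_ofFn_iff] at this
    rw [berl_ker (hm a), ← this]
    congr! 3 with v
    simp
  have hM : DPT fun a => (L a).map fun w => ofL (List.ofFn w) :=
    hL.map ((hK.comp pt_sigma_fst).dofL (DPT.ofFn.1 dpt_sigma_snd))
  refine ⟨_, hM.find? (f := fun _ B => decide (B.natDegree ≠ 0))
    ((un_natDegree dpt_sigma_snd).1.ne (PT.const 0)).decide, fun a => ⟨fun h B hB => ?_, fun B h => ?_⟩⟩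
  · simp only [List.find?_eq_none, List.mem_map, decide_eq_true_eq, not_not, forall_exists_index, and_imp,
      forall_apply_eq_imp_iff₂] at h
    have hd : f a ∣ B - B %ₘ f a := ⟨B /ₘ f a, by linear_combination -modByMonic_add_div B (f a)⟩
    have e : ofL (List.ofFn fun k : Fin (f a).natDegree => (B %ₘ f a).coeff k) = B %ₘ f a := by
      rw [berl_ofL]
      simp only [C_mul_X_pow_eq_monomial]
      exact sum_fin (fun k c => monomial k c) (by simp) (by
        rw [← degree_eq_natDegree (hm a).ne_zero]; exact degree_modByMonic_lt _ (hm a)) |>.trans (sum_monomial_eq _)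
    have h1 := (key a fun k => (B %ₘ f a).coeff k).mpr (by
      rw [e]
      have := dvd_sub (dvd_sub hB (hd.trans (sub_dvd_pow_sub_pow B (B %ₘ f a) (p a)))) (dvd_neg.mpr hd)
      convert this using 1
      ring)
    have h2 : ∀ c ∈ Submodule.span (ZMod (p a)) {v | v ∈ L a}, ∀ k : Fin (f a).natDegree, k.val ≠ 0 → c k = 0 := by
      intro c hc k hk
      induction hc using Submodule.span_induction with
      | mem w hw =>
        have := coeff_eq_zero_of_natDegree_lt (p := ofL (List.ofFn w)) (n := k) (by rw [h w hw]; omega)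
        simpa [coeff_ofL] using this
      | zero => rfl
      | add x y _ _ hx hy => simp [hx, hy]
      | smul r x _ hx => simp [hx]
    refine ⟨(B %ₘ f a).coeff 0, ?_⟩
    rw [← eq_C_of_natDegree_le_zero]
    · exact hd
    refine natDegree_le_iff_coeff_eq_zero.mpr fun k hk => ?_
    by_cases hk' : k < (f a).natDegree
    · exact h2 _ h1 ⟨k, hk'⟩ hk.ne'
    · refine coeff_eq_zero_of_degree_lt ((degree_modByMonic_lt _ (hm a)).trans_le ?_)
      rw [degree_eq_natDegree (hm a).ne_zero]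
      exact_mod_cast not_lt.mp hk'
  · obtain ⟨w, hw, rfl⟩ := List.mem_map.mp (List.mem_of_find?_eq_some h)
    have h0 : (ofL (List.ofFn w)).natDegree ≠ 0 := by simpa using List.find?_some h
    refine ⟨(key a w).mp (Submodule.subset_span hw), fun c hc => h0 ?_⟩
    have h1 : (ofL (List.ofFn w) - Polynomial.C c).degree < (f a).degree := by
      have h2 := berl_deg w
      rw [← degree_eq_natDegree (hm a).ne_zero] at h2
      rwa [degree_sub_C (natDegree_pos_iff_degree_pos.mp (Nat.pos_of_ne_zero h0))]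
    rw [sub_eq_zero.mp (eq_zero_of_dvd_of_degree_lt hc h1), natDegree_C]

end Crest.Agent.R312
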