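import Crest.Agent.R312.T2
import Crest.Prelude.Def_PolyFactor

/-!
# R312/Top/Code: the bit codes of `Crest.PolyFactor`.
`pt_decodeLists`: `decodeAux` is a left fold over `pairUp s` (or a `PT.iterate`/`whileLoop` on the state `(s, ds, cur, done)`); alternatively prove only
`exists_dec` with the `Parses` combinators.
-/

set_option autoImplicit false

open Polynomial Finset Crest.Agent.Lib.PolyTime

noncomputable section

namespace Crest.Agent.R312

variable {α α' : Type} [Enc α] [Enc α']

open Crest.PolyFactor

theorem code_count (l : List ℕ) : ((pairUp (encNatList l)).countP fun q => !q.1 && !q.2) = l.length := by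
  have key : ∀ (b r : List Bool), ((pairUp ((b.flatMap fun d => [true, d]) ++ ([false, false] ++ r))).countP
      fun q => !q.1 && !q.2) = ((pairUp r).countP fun q => !q.1 && !q.2) + 1 := by
    intro b r
    induction b with
    | nil => simp [pairUp_cons_cons]
    | cons d b ih =>
      simp only [List.flatMap_cons, List.cons_append, List.nil_append, pairUp_cons_cons] at ih ⊢
      rw [List.countP_cons_of_neg (by simp), ih]
  induction l with
  | nil => simp [encNatList, pairUp_cons_cons, pairUp]
  | cons a l ih =>
    rw [encNatList, List.flatMap_cons, encNat, List.append_assoc, List.append_assoc, key, List.length_cons, ← ih]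
    rfl

theorem exists_dec : ∃ dec : List Bool → List ℕ, PT dec ∧ ∀ l, dec (encNatList l) = l := by
  obtain ⟨run, h1, -, h3⟩ := (Parses.nat (ι := List Bool)).many
    (k := fun s => (pairUp s).countP fun q => !q.1 && !q.2) (by fun_prop)
  refine ⟨fun s => (run (s, s)).1, by fun_prop, fun l => ?_⟩
  have := h3 (encNatList l) l [false, true] ⟨(code_count l).symm, fun a _ => ⟨trivial, natCode_ne_nil a⟩⟩
  exact congrArg Prod.fst this

theorem pt_encNatList {l : α → List ℕ} (hl : PT l) : PT fun a => encNatList (l a) := by
  unfold encNatList encNat
  fun_prop

theorem decodeLists_flatMap (L : List (List ℕ)) : decodeLists (L.flatMap encNatList) = L := by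
  have h1 : ∀ b : List Bool, Crest.PolyFactor.ofDigits b = ofBits b := fun b => by
    induction b with
    | nil => rfl
    | cons d b ih => rw [Crest.PolyFactor.ofDigits, ofBits_cons, ih, Nat.bit_val, add_comm]
  have h2 : ∀ (b r ds : List Bool) cur done,
      decodeAux ((b.flatMap fun d => [true, d]) ++ r) ds cur done = decodeAux r (ds ++ b) cur done := by
    intro b r
    induction b with
    | nil => simp
    | cons d b ih =>
      intro ds cur done
      simp only [List.flatMap_cons, List.cons_append, List.nil_append, decodeAux, ih, List.append_assoc]
  have h3 : ∀ (l : List ℕ) (r : List Bool) cur done,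
      decodeAux (l.flatMap encNat ++ r) [] cur done = decodeAux r [] (cur ++ l) done := by
    intro l r
    induction l with
    | nil => simp
    | cons a l ih =>
      intro cur done
      rw [List.flatMap_cons, encNat, List.append_assoc, List.append_assoc, h2]
      simp only [List.cons_append, List.nil_append, decodeAux, ih, h1, ofBits_bits, List.append_assoc]
  have h4 : ∀ (L done : List (List ℕ)), decodeAux (L.flatMap encNatList) [] [] done = done ++ L := by
    intro L
    induction L with
    | nil => simp [decodeAux]
    | cons l L ih =>
      intro done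
      rw [List.flatMap_cons, encNatList, List.append_assoc, h3]
      simp only [List.cons_append, List.nil_append, decodeAux, ih, List.append_assoc]
  exact h4 L []

/-- the same with the plain cast (`ofCoeffList_eq` elaborates with a monadic coercion) -/
theorem ofCoeffList_eq' (p : ℕ) (l : List ℕ) : ofCoeffList p l = ofL (l.map fun c : ℕ => (c : ZMod p)) := by
  rw [ofCoeffList, ofL, List.length_map]
  refine Finset.sum_congr rfl fun i _ => ?_
  rw [← Nat.cast_zero (R := ZMod p), List.getD_map]

theorem ofCoeffList_eq (p : ℕ) (l : List ℕ) : ofCoeffList p l = ofL (l.map fun c => (c : ZMod p)) := by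
  rw [ofCoeffList_eq']
  congr 1
  simp [List.map_eq_flatMap]

theorem ofCoeffList_pl (p : ℕ) [NeZero p] (g : (ZMod p)[X]) : ofCoeffList p ((pl g).map ZMod.val) = g := by
  rw [ofCoeffList_eq', List.map_map, List.map_congr_left (g := id) fun c _ => by exact ZMod.natCast_zmod_val c,
    List.map_id, ofL_pl]

theorem encodeInst_eq (p : ℕ) (f : (ZMod p)[X]) : encodeInst p f = encNatList (p :: (pl f).map ZMod.val) := by
  rw [encodeInst, pl, List.map_map]
  rfl

end Crest.Agent.R312
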