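import Crest.Agent.R312.Top.Gcd

/-!
# R312/Top/Cv: the curve data attached to a split squarefree polynomial over `ZMod p`.
`q = minFac (deg h) ≤ deg h < p`, `m = t.getD q 0`, `K = AdjoinRoot m` (`Fact (Irreducible m)`, `Fact m.Monic`, `encAdj`, `BR.adj`, `br_zmod`),
`card K = p ^ deg m` (`AdjoinRoot.powerBasis`, `Module.card_eq_pow_finrank`), `0 < deg m ≤ q - 1`, `ζ = root m`
(`isRoot_cyclotomic_iff`), `γ` from `NonresSt`, `f = h.map (algebraMap _ _)`, `ret z = (rep m z).coeff 0`.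
-/

set_option autoImplicit false

open Polynomial Finset Crest.Agent.Lib.PolyTime

noncomputable section

namespace Crest.Agent.R312

variable {α α' : Type} [Enc α] [Enc α']

/-- search in `range (n + 1)` -/
theorem un_minFac {n : α → ℕ} (hn : UN n) : UN fun a => (n a).minFac := by
  have hb : ∀ a, (n a).minFac ≤ n a + 2 := fun a => by
    rcases Nat.eq_zero_or_pos (n a) with h | h
    · simp [h]
    · exact (Nat.minFac_le h).trans (by omega)
  refine UN.of_le ?_ (hn.2.add (PB.const 2)) hb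
  have h1 := hn.1
  have h2 := hn.2
  have : PT fun a => if n a = 1 then 1 else
      (((List.range (n a + 3)).filter fun k => decide (2 ≤ k ∧ k ∣ n a)).headD 0) := by fun_prop
  refine this.of_eq fun a => ?_
  split_ifs with h
  · rw [h, Nat.minFac_one]
  · have hp := Nat.minFac_prime h
    rw [List.headD_eq_head?_getD, List.head?_filter, (List.find?_range_eq_some (i := (n a).minFac)).2, Option.getD_some]
    refine ⟨by simpa using ⟨hp.two_le, Nat.minFac_dvd _⟩, by simpa using (hb a).trans_lt (by omega), fun j hj => ?_⟩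
    simp only [Bool.not_eq_eq_eq_not, Bool.not_true, decide_eq_false_iff_not, not_and]
    exact fun h2 hd => absurd (Nat.minFac_le_of_dvd h2 hd) (by omega)

theorem pt_prime {n : α → ℕ} (hn : UN n) : PT fun a => (n a).Prime := by
  have h1 := hn.1
  have h2 := (un_minFac hn).1
  have : PT fun a => 2 ≤ n a ∧ (n a).minFac = n a := by fun_prop
  exact this.of_iff fun a => Nat.prime_def_minFac.symm

variable {p : α → ℕ} [∀ a, Fact (p a).Prime]

theorem pt_card_zmod (hp : PT p) : PT fun a => Fintype.card (ZMod (p a)) := by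
  simpa only [ZMod.card] using hp

theorem cv_facts {p : ℕ} [Fact p.Prime] {q : ℕ} (hq : q.Prime) (hne : q ≠ p) {m : (ZMod p)[X]} [Fact (Irreducible m)]
    (hd : m ∣ cyclotomic q (ZMod p)) :
    IsPrimitiveRoot (AdjoinRoot.root m) q ∧ 0 < m.natDegree ∧ m.natDegree < q := by
  have hi : Irreducible m := Fact.out
  have hc : CharP (AdjoinRoot m) p := charP_of_injective_algebraMap (algebraMap (ZMod p) (AdjoinRoot m)).injective p
  have : NeZero (q : AdjoinRoot m) := ⟨fun h => hne ((Nat.prime_dvd_prime_iff_eq Fact.out hq).1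
    ((CharP.cast_eq_zero_iff (AdjoinRoot m) p q).1 h)).symm⟩
  refine ⟨?_, hi.natDegree_pos, ?_⟩
  · rw [← isRoot_cyclotomic_iff, ← map_cyclotomic q (algebraMap (ZMod p) (AdjoinRoot m))]
    exact (AdjoinRoot.isRoot_root m).dvd (Polynomial.map_dvd _ hd)
  · have := natDegree_le_of_dvd hd (cyclotomic_ne_zero _ _)
    rw [natDegree_cyclotomic, Nat.totient_prime hq] at this
    have := hq.pos
    omega

theorem exists_cv (hN : NonresSt) (hp : PT p) {h : ∀ a, (ZMod (p a))[X]} (hh : DPT h) (hs : ∀ a, SS (h a))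
    (h2 : ∀ a, 2 ≤ (h a).natDegree) (hlt : ∀ a, (h a).natDegree < p a) {t : ∀ a, List (ZMod (p a))[X]} (ht : DPT t)
    (hT : ∀ a, Tab (p a) (h a).natDegree (t a)) :
    ∃ (C : α → Cv) (φ : ∀ a, ZMod (p a) →+* (C a).K) (ret : ∀ a, (C a).K → ZMod (p a)), Good C ∧
      (∀ a, (C a).f = (h a).map (φ a)) ∧ (DPT fun x : Σ a, (C a).K => ret x.1 x.2) ∧ ∀ a c, ret a (φ a c) = c := by
  have hq : ∀ a, (h a).natDegree.minFac.Prime := fun a => Nat.minFac_prime (by have := h2 a; omega)
  have hle : ∀ a, (h a).natDegree.minFac ≤ (h a).natDegree := fun a => Nat.minFac_le (by have := h2 a; omega)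
  have hne : ∀ a, (h a).natDegree.minFac ≠ p a := fun a => ((hle a).trans_lt (hlt a)).ne
  have hqu := un_minFac (un_natDegree hh)
  have hF : BR fun a => ZMod (p a) := br_zmod hp
  obtain ⟨m, hm, hm1, hm2, hm3⟩ : ∃ m : ∀ a, (ZMod (p a))[X], DPT m ∧ (∀ a, (m a).Monic) ∧ (∀ a, Irreducible (m a)) ∧
      ∀ a, m a ∣ cyclotomic (h a).natDegree.minFac (ZMod (p a)) :=
    ⟨fun a => (t a).getD (h a).natDegree.minFac 0, ht.getD hqu.1 hF.poly.zero,
      fun a => (hT a _ (hle a) (hq a) (hne a)).1, fun a => (hT a _ (hle a) (hq a) (hne a)).2.1,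
      fun a => (hT a _ (hle a) (hq a) (hne a)).2.2⟩
  have : ∀ a, Fact (m a).Monic := fun a => ⟨hm1 a⟩
  have : ∀ a, Fact (Irreducible (m a)) := fun a => ⟨hm2 a⟩
  have hf := fun a => cv_facts (hq a) (hne a) (hm3 a)
  have : ∀ a, Module.Finite (ZMod (p a)) (AdjoinRoot (m a)) := fun a => (AdjoinRoot.powerBasis (hm1 a).ne_zero).finite
  let _ : ∀ a, Fintype (AdjoinRoot (m a)) := fun a =>
    @Fintype.ofFinite _ (Module.finite_of_finite (ZMod (p a)))
  have hcard : ∀ a, Fintype.card (AdjoinRoot (m a)) = p a ^ (m a).natDegree := fun a => by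
    rw [Module.card_eq_pow_finrank (K := ZMod (p a)), ZMod.card, (AdjoinRoot.powerBasis (hm1 a).ne_zero).finrank,
      AdjoinRoot.powerBasis_dim]
  have hK : BR fun a => AdjoinRoot (m a) := BR.adj hF hm
  have hQ : PT fun a => Fintype.card (AdjoinRoot (m a)) :=
    (hp.nat_pow (un_natDegree hm).1 (un_natDegree hm).2).of_eq fun a => (hcard a).symm
  have hζ := hF.droot hm
  obtain ⟨γ, hγ, hγ'⟩ := hN (K := fun a => AdjoinRoot (m a)) hK hp hqu hQ (fun a => Fact.out) hq
    (fun a => charP_of_injective_algebraMap (algebraMap (ZMod (p a)) (AdjoinRoot (m a))).injective (p a))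
    (fun a => ⟨_, hcard a, Nat.not_dvd_of_pos_of_lt (hf a).2.1 (hf a).2.2⟩) hζ fun a => (hf a).1
  have hof : DPT fun x : Σ a, ZMod (p a) => algebraMap (ZMod (p x.1)) (AdjoinRoot (m x.1)) x.2 :=
    MR.dof (m := fun x : Σ a, ZMod (p a) => m x.1) (hF.comp pt_sigma_fst) (hm.comp pt_sigma_fst) dpt_sigma_snd
  have hmap : DPT fun a => (h a).map (algebraMap (ZMod (p a)) (AdjoinRoot (m a))) :=
    MR.dmap (φ := fun a => algebraMap (ZMod (p a)) (AdjoinRoot (m a))) hF hK hof hh
  have hret : DPT fun x : Σ a, AdjoinRoot (m a) => (rep (m x.1) x.2).coeff 0 :=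
    MR.dcoeff (k := fun _ => 0) (hF.comp pt_sigma_fst)
      (dpt_rep (m := fun x : Σ a, AdjoinRoot (m a) => m x.1) dpt_sigma_snd) (PT.const 0)
  let C : α → Cv := fun a =>
    { K := AdjoinRoot (m a), q := (h a).natDegree.minFac, hq := hq a, ζ := AdjoinRoot.root (m a), hζ := (hf a).1,
      γ := γ a, hγ0 := (hγ' a).1, hγ := (hγ' a).2, f := (h a).map (algebraMap _ _), mon := (hs a).1.map _,
      sep := (hs a).2.1.map, spl := (hs a).2.2.map _,
      dvd := by rw [natDegree_map]; exact Nat.minFac_dvd _,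
      pos := by rw [natDegree_map]; have := h2 a; omega }
  refine ⟨C, fun a => algebraMap _ (AdjoinRoot (m a)), fun a z => (rep (m a) z).coeff 0, ⟨hK, hQ, hqu, hζ, hγ, ?_⟩,
    fun _ => rfl, ?_, fun a c => ?_⟩
  · exact hmap
  · exact hret
  · show (rep (m a) (AdjoinRoot.mk (m a) (Polynomial.C c))).coeff 0 = c
    rw [rep_mk, (modByMonic_eq_self_iff (hm1 a)).2, coeff_C_zero]
    exact degree_C_le.trans_lt (natDegree_pos_iff_degree_pos.1 (hf a).2.1)

end Crest.Agent.R312
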