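import Crest.Agent.R312.Top.Split

/-!
# R312/Top/Fac: the complete factorisation.
`Solv.loopI` on `(done, todo)`: members of `done` monic irreducible, members of `todo` monic of positive degree,
`C lc * (done.prod * todo.prod) = f` (so the degrees add up to `deg f`: sizes by `BR.poly_size`, `esize_list_le`); measure
`(todo.map fun g => 2 * deg g).sum - todo.length` or `∑ (2 deg g - 1)`.  Start `todo = [f * C lc⁻¹]` or `[]` if `deg f = 0`.  Step on `g :: rest`: `solv_split`;
`none`: move `g` to `done`; `some d`: `d :: g /ₘ d :: rest`.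
-/

set_option autoImplicit false

open Polynomial Finset Crest.Agent.Lib.PolyTime

noncomputable section

namespace Crest.Agent.R312

variable {α α' : Type} [Enc α] [Enc α']

variable {p : α → ℕ} [∀ a, Fact (p a).Prime]

section FacAux

variable {F : Type} [Field F] {f : F[X]} {x : List F[X] × List F[X]}

/-- the loop invariant -/
def FacI (f : F[X]) (x : List F[X] × List F[X]) : Prop :=
  (∀ g ∈ x.1, Irreducible g) ∧ (∀ g ∈ x.1 ++ x.2, g.Monic ∧ 0 < g.natDegree) ∧
    Polynomial.C f.leadingCoeff * (x.1 ++ x.2).prod = f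

/-- the measure -/
def facM (f : F[X]) (x : List F[X] × List F[X]) : ℕ := 2 * f.natDegree - (2 * x.1.length + x.2.length)

theorem fac_len_le {L : List F[X]} (h : ∀ g ∈ L, g.Monic ∧ 0 < g.natDegree) :
    L.prod.Monic ∧ L.length ≤ L.prod.natDegree := by
  induction L with
  | nil => simp
  | cons g L ih =>
    obtain ⟨h1, h2⟩ := ih fun g hg => h g (List.mem_cons_of_mem _ hg)
    obtain ⟨h3, h4⟩ := h g List.mem_cons_self
    rw [List.prod_cons, h3.natDegree_mul h1, List.length_cons]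
    exact ⟨h3.mul h1, by omega⟩

theorem FacI.le (h : FacI f x) (h0 : f ≠ 0) :
    x.1.length + x.2.length ≤ f.natDegree ∧ ∀ g ∈ x.1 ++ x.2, g.natDegree ≤ f.natDegree := by
  refine ⟨?_, fun g hg => natDegree_le_of_dvd (h.2.2 ▸ (List.dvd_prod hg).mul_left _) h0⟩
  rw [← h.2.2, natDegree_C_mul (leadingCoeff_ne_zero.2 h0), ← List.length_append]
  exact (fac_len_le h.2.1).2

theorem fac_start (h0 : f ≠ 0) :
    FacI f ([], if f.natDegree = 0 then [] else [f * Polynomial.C f.leadingCoeff⁻¹]) := by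
  refine ⟨by simp, ?_, ?_⟩ <;> split_ifs with h
  · simp
  · simp only [List.nil_append, List.mem_singleton, forall_eq]
    exact ⟨monic_mul_leadingCoeff_inv h0, by rw [natDegree_mul_leadingCoeff_inv _ h0]; omega⟩
  · rw [List.nil_append, List.prod_nil, mul_one, leadingCoeff, h]
    exact (eq_C_of_natDegree_eq_zero h).symm
  · rw [List.nil_append, List.prod_singleton, mul_left_comm, ← C_mul, mul_inv_cancel₀ (leadingCoeff_ne_zero.2 h0),
      C_1, mul_one]

theorem fac_head (hx : x.2 ≠ []) : x.2 = x.2.getD 0 0 :: x.2.drop 1 := by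
  obtain ⟨a, _ | ⟨g, r⟩⟩ := x
  · exact (hx rfl).elim
  · rfl

theorem fac_mem (hx : x.2 ≠ []) : x.2.getD 0 0 ∈ x.1 ++ x.2 :=
  List.mem_append_right _ (by rw [fac_head hx]; exact List.mem_cons_self)

theorem FacI.irr (h : FacI f x) (h0 : f ≠ 0) (hx : x.2 ≠ []) (hi : Irreducible (x.2.getD 0 0)) :
    FacI f (x.1 ++ [x.2.getD 0 0], x.2.drop 1) ∧ facM f (x.1 ++ [x.2.getD 0 0], x.2.drop 1) < facM f x := by
  have h1 := (h.le h0).1
  obtain ⟨a, _ | ⟨g, r⟩⟩ := x
  · exact (hx rfl).elim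
  refine ⟨⟨fun e he => (List.mem_append.1 he).elim (h.1 e) fun he => List.mem_singleton.1 he ▸ hi, ?_⟩, ?_⟩
  · simpa using h.2
  · simp [facM] at h1 ⊢
    omega

theorem FacI.spl (h : FacI f x) (h0 : f ≠ 0) (hx : x.2 ≠ []) {d : F[X]} (hd : Prp (x.2.getD 0 0) d) :
    FacI f (x.1, d :: (x.2.getD 0 0 /ₘ d) :: x.2.drop 1) ∧
      facM f (x.1, d :: (x.2.getD 0 0 /ₘ d) :: x.2.drop 1) < facM f x := by
  obtain ⟨a, _ | ⟨g, r⟩⟩ := x
  · exact (hx rfl).elim
  obtain ⟨h1, ⟨e, rfl⟩, h2, h3⟩ : Prp g d := hd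
  have h4 := h1.of_mul_monic_left (h.2.1 (d * e) (by simp)).1
  rw [h1.natDegree_mul h4] at h3
  have h5 : FacI f (a, d :: e :: r) := by
    refine ⟨h.1, fun g hg => ?_, by simpa [mul_assoc] using h.2.2⟩
    simp only [List.mem_append, List.mem_cons] at hg
    rcases hg with hg | rfl | rfl | hg
    exacts [h.2.1 g (by simp [hg]), ⟨h1, h2⟩, ⟨h4, by omega⟩, h.2.1 g (by simp [hg])]
  have h6 := (h5.le h0).1
  simp only [List.getD_cons_zero, mul_divByMonic_cancel_left _ h1, List.drop_one, List.tail_cons]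
  refine ⟨h5, ?_⟩
  simp [facM] at h6 ⊢
  omega

end FacAux

/-- one step on a nonempty work list -/
theorem fac_step (hC : CoreSt) (hN : NonresSt) (hp : PT p) {f : ∀ a, (ZMod (p a))[X]} (h0 : ∀ a, f a ≠ 0)
    {t : ∀ a, List (ZMod (p a))[X]} (ht : DPT t) (hT : ∀ a, Tab (p a) (f a).natDegree (t a))
    {x : ∀ a, List (ZMod (p a))[X] × List (ZMod (p a))[X]} (hx : DPT x) (hI : ∀ a, FacI (f a) (x a))
    (hne : ∀ a, (x a).2 ≠ []) : Solv fun a y => FacI (f a) y ∧ facM (f a) y < facM (f a) (x a) := by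
  have hK := br_zmod hp
  have hg : DPT fun a => (x a).2.getD 0 0 := hx.snd.getD (PT.const 0) hK.poly.zero
  have hr : DPT fun a => (x a).2.drop 1 := hx.snd.drop (PT.const 1)
  obtain ⟨o, ho, h⟩ := solv_split hC hN hp hg (fun a => ((hI a).2.1 _ (fac_mem (hne a))).1)
    (fun a => ((hI a).2.1 _ (fac_mem (hne a))).2) ht
    fun a => (hT a).mono (((hI a).le (h0 a)).2 _ (fac_mem (hne a)))
  refine Solv.cases ho.isSome ?_ ?_
  · have hd := (ho.comp (pt_val (p := fun a => (o a).isSome = true))).optGet fun a => a.2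
    have hP := fun a : {a // (o a).isSome = true} => (h a.1).2 _ (Option.some_get a.2).symm
    exact Solv.of_dpt ((hx.fst.comp pt_val).pair (hd.cons (((hK.comp pt_val).ddiv (hg.comp pt_val) hd
      fun a => (hP a).1).cons (hr.comp pt_val)))) fun a => (hI a.1).spl (h0 _) (hne _) (hP a)
  · exact Solv.of_dpt (((hx.fst.append (hg.cons DPT.nil)).pair hr).comp pt_val) fun a =>
      (hI a.1).irr (h0 _) (hne _) ((h a.1).1 (Option.not_isSome_iff_eq_none.1 a.2))

theorem solv_fac (hC : CoreSt) (hN : NonresSt) (hp : PT p) {f : ∀ a, (ZMod (p a))[X]} (hf : DPT f) (h0 : ∀ a, f a ≠ 0)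
    {t : ∀ a, List (ZMod (p a))[X]} (ht : DPT t) (hT : ∀ a, Tab (p a) (f a).natDegree (t a)) :
    Solv fun a l => Fac (f a) l := by
  have hK := br_zmod hp
  have hn := un_natDegree hf
  obtain ⟨g, hg, hsz⟩ := hK.poly_size hn.2
  have hQ : PT fun a => Fintype.card (ZMod (p a)) := hp.of_eq fun a => (ZMod.card _).symm
  refine (Solv.loopI (fun a => FacI (f a)) (fun a x => x.2 = []) (fun a => facM (f a))
    (g := fun a => 2 * ((f a).natDegree * (g a + 1) + 1) + 1) (by have := hn.2; fun_prop)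
    (Solv.of_dpt (DPT.nil.pair (DPT.ite ((DPT.of_pt hn.1).eq (DPT.of_pt (PT.const 0))) DPT.nil ((hK.dnorm hQ hf).cons DPT.nil)))
      fun a => fac_start (h0 a)) (fun a x hI => ?_) ?_).elim fun x ⟨hx, h⟩ => ?_
  · obtain ⟨h1, h2⟩ := hI.le (h0 a)
    have e1 := esize_list_le fun e he => hsz a e (h2 e (List.mem_append_left _ he))
    have e2 := esize_list_le fun e he => hsz a e (h2 e (List.mem_append_right _ he))
    have e3 := Nat.mul_le_mul_right (g a + 1) h1
    rw [esize_prod, facM]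
    constructor
    · nlinarith
    · exact (Nat.sub_le _ _).trans (by nlinarith)
  · have hs := (dpt_sigma_snd (β := fun a => {x // FacI (f a) x})).val
    refine Solv.cases (hs.snd.eq DPT.nil) (Solv.of_dpt DPT.none fun a => ⟨fun _ => a.2, fun _ h => nomatch h⟩) ?_
    obtain ⟨y, hy, h⟩ := fac_step (p := fun a : {a : Σ a, {x // FacI (f a) x} // ¬ a.2.1.2 = []} => p a.1.1) hC hN
      (hp.comp (pt_sigma_fst.comp pt_val)) (fun a => h0 _) (ht.comp (pt_sigma_fst.comp pt_val)) (fun a => hT _)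
      (hs.comp pt_val) (fun a => a.1.2.2) fun a => a.2
    exact Solv.of_dpt hy.some fun a => ⟨fun e => (nomatch e), fun z e => Option.some.inj e ▸ h a⟩
  · refine Solv.of_dpt hx.fst fun a => ⟨fun e he => ⟨((h a).1.2.1 e (List.mem_append_left _ he)).1, (h a).1.1 e he⟩, ?_⟩
    have := (h a).1.2.2
    rwa [(h a).2, List.append_nil] at this

end Crest.Agent.R312
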