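import Crest.Agent.R312.Top.Defs
import Crest.Agent.R312.T3
import Crest.Agent.R312.T5

/-!
# R312/Top/Gcd: polynomials over a polynomial-time family of finite fields.
`x⁻¹ = x ^ (2 Q - 3)` (`pow_inv_eq`, `BR.dpow`); `g % m = g %ₘ (m * C (leadingCoeff m)⁻¹)` (`Polynomial.mod_def`; case `m = 0` apart);
Euclid's algorithm with `Solv.loopI` on pairs `(u, v)` (invariant: common divisors unchanged, degrees bounded; measure `if v = 0 then 0 else natDegree v + 1`).
-/

set_option autoImplicit false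

open Polynomial Finset Crest.Agent.Lib.PolyTime

noncomputable section

namespace Crest.Agent.R312

variable {α α' : Type} [Enc α] [Enc α']

variable {K : α → Type} [∀ a, Field (K a)] [∀ a, Fintype (K a)] [∀ a, Enc (K a)]

theorem BR.dinv (hK : BR K) (hQ : PT fun a => Fintype.card (K a)) {x : ∀ a, K a} (hx : DPT x) : DPT fun a => (x a)⁻¹ := by
  exact (hK.dpow hx (((PT.const 2).nat_mul hQ).nat_sub (PT.const 3))).of_eq fun a => pow_inv_eq _

/-- polynomials of bounded degree have bounded size (`MR.poly`, `MR.exists_size`, `muP_le`) -/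
theorem BR.poly_size (hK : BR K) {n : α → ℕ} (hn : PB n) :
    ∃ g : α → ℕ, PB g ∧ ∀ a (f : (K a)[X]), f.natDegree ≤ n a → esize f ≤ g a := by
  obtain ⟨g, hg, h⟩ := (MR.poly hK).exists_size hn
  exact ⟨g, hg, fun a f hf => h a f ((muP_le rfl).2 ⟨hf, fun _ => Nat.zero_le _⟩)⟩

theorem BR.dnorm (hK : BR K) (hQ : PT fun a => Fintype.card (K a)) {f : ∀ a, (K a)[X]} (hf : DPT f) :
    DPT fun a => f a * Polynomial.C (f a).leadingCoeff⁻¹ := by
  exact (MR.poly hK).dmul hf (MR.dC hK (hK.dinv hQ (MR.dlead hK hf)))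

theorem BR.dmodF (hK : BR K) (hQ : PT fun a => Fintype.card (K a)) {f g : ∀ a, (K a)[X]} (hf : DPT f) (hg : DPT g) :
    DPT fun a => f a % g a := by
  refine DPT.cases (hg.eq (MR.poly hK).zero) ((hf.comp pt_val).of_eq fun a => ?_) ?_
  · rw [a.2, EuclideanDomain.mod_zero]
  · have h' : BR fun a : {a // ¬ g a = 0} => K a.1 := MR.comp hK pt_val
    exact (MR.dmod h' (hf.comp pt_val) (h'.dnorm (PT.comp hQ pt_val) (hg.comp pt_val))
      fun a => monic_mul_leadingCoeff_inv a.2).of_eq fun a => mod_def.symm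

theorem BR.ddvd (hK : BR K) (hQ : PT fun a => Fintype.card (K a)) {f g : ∀ a, (K a)[X]} (hf : DPT f) (hg : DPT g) :
    PT fun a => f a ∣ g a := by
  exact ((hK.dmodF hQ hg hf).eq (MR.poly hK).zero).of_eq fun a => propext EuclideanDomain.mod_eq_zero

theorem BR.dderivative (hK : BR K) {f : ∀ a, (K a)[X]} (hf : DPT f) : DPT fun a => derivative (f a) := by
  have hn : UN fun a => (f a).natDegree + 1 := (un_natDegree hf).add (UN.const 1)
  refine MR.ofCoeff hK hn (fun a => Or.inl (by have := natDegree_derivative_le (f a); omega)) ?_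
  have h' := MR.comp hK (pt_sigma_fst (β := fun a => Fin ((f a).natDegree + 1)))
  exact (h'.dmul (h'.dcoeff (hf.comp pt_sigma_fst) (hn.fin.add (UN.const 1)).1)
    (h'.dadd (h'.dnat hn.fin.1) h'.one)).of_eq fun p => (coeff_derivative _ _).symm

theorem BR.dcomp (hK : BR K) {f g : ∀ a, (K a)[X]} (hf : DPT f) (hg : DPT g) : DPT fun a => (f a).comp (g a) := by
  exact MR.deval₂ hK (MR.poly hK) (φ := fun _ => Polynomial.C)
    (MR.dC (MR.comp hK pt_sigma_fst) dpt_sigma_snd) hf hg

/-- `coeff_contract` -/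
theorem BR.dcontract (hK : BR K) {f : ∀ a, (K a)[X]} (hf : DPT f) {k : α → ℕ} (hk : PT k) (h0 : ∀ a, k a ≠ 0) :
    DPT fun a => contract (k a) (f a) := by
  have hn : UN fun a => (f a).natDegree + 1 := (un_natDegree hf).add (UN.const 1)
  refine MR.ofCoeff hK hn (fun a => Or.inl (Nat.lt_succ_of_le (natDegree_le_iff_coeff_eq_zero.2 fun i hi => ?_))) ?_
  · rw [coeff_contract (h0 a)]
    exact coeff_eq_zero_of_natDegree_lt (hi.trans_le (Nat.le_mul_of_pos_right _ (Nat.pos_of_ne_zero (h0 a))))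
  have h' := MR.comp hK (pt_sigma_fst (β := fun a => Fin ((f a).natDegree + 1)))
  exact (h'.dcoeff (hf.comp pt_sigma_fst) (hn.fin.1.nat_mul (PT.comp hk pt_sigma_fst))).of_eq
    fun p => (coeff_contract (h0 _) _ _).symm

/-- powers with binary exponents modulo a monic polynomial (`BR.adj`, `BR.dpow`, `dpt_rep`, `rep_mk`) -/
theorem BR.dpowmod (hK : BR K) {f m : ∀ a, (K a)[X]} (hf : DPT f) (hm : DPT m) (hmon : ∀ a, (m a).Monic) {k : α → ℕ}
    (hk : PT k) : DPT fun a => (f a ^ k a) %ₘ m a := by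
  have : ∀ a, Fact (m a).Monic := fun a => ⟨hmon a⟩
  exact (dpt_rep ((hK.adj hm).dpow (MR.dmk hK hm hf) hk)).of_eq fun a => by rw [← map_pow, rep_mk]

theorem solv_gcd (hK : BR K) (hQ : PT fun a => Fintype.card (K a)) {f g : ∀ a, (K a)[X]} (hf : DPT f) (hg : DPT g) :
    Solv fun a d => IsG (f a) (g a) d := by
  classical
  have hn := (un_natDegree hf).add (un_natDegree hg)
  obtain ⟨s, hs, hsz⟩ := hK.poly_size hn.2
  let I : ∀ a, (K a)[X] × (K a)[X] → Prop := fun a x =>
    x.1.natDegree ≤ (f a).natDegree + (g a).natDegree ∧ x.2.natDegree ≤ (f a).natDegree + (g a).natDegree ∧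
      ∀ e, e ∣ x.1 ∧ e ∣ x.2 ↔ e ∣ f a ∧ e ∣ g a
  have h1 : DPT fun p : Σ a, {x // I a x} => p.2.1.1 := dpt_sigma_snd.val.fst
  have h2 : DPT fun p : Σ a, {x // I a x} => p.2.1.2 := dpt_sigma_snd.val.snd
  have hK' := hK.comp (pt_sigma_fst (β := fun a => {x // I a x}))
  have hQ' := hQ.comp (pt_sigma_fst (β := fun a => {x // I a x}))
  obtain ⟨x, hx, h⟩ := Solv.loopI I (fun a x => x.2 = 0) (fun a x => if x.2 = 0 then 0 else x.2.natDegree + 1)
    (g := fun a => s a + s a + ((f a).natDegree + (g a).natDegree) + 1)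
    (((hs.add hs).add hn.2).add (PB.const 1))
    ⟨fun a => (f a, g a), hf.pair hg, fun a => ⟨Nat.le_add_right _ _, Nat.le_add_left _ _, fun _ => Iff.rfl⟩⟩
    (fun a x hx => by
      have e1 := hsz a _ hx.1
      have e2 := hsz a _ hx.2.1
      have e3 := hx.2.1
      refine ⟨by rw [esize_prod]; omega, by split_ifs <;> omega⟩)
    ⟨fun p => if p.2.1.2 = 0 then none else some (p.2.1.2, p.2.1.1 % p.2.1.2),
      DPT.ite (h2.eq hK'.poly.zero) DPT.none (h2.pair (BR.dmodF hK' hQ' h1 h2)).some, fun p => by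
      obtain ⟨a, ⟨u, v⟩, e1, e2, e3⟩ := p
      by_cases h0 : v = 0
      · simp [h0]
      · simp only [if_neg h0, reduceCtorEq, false_imp_iff, true_and, Option.some.injEq]
        rintro _ rfl
        have hlt : u % v ≠ 0 → (u % v).natDegree < v.natDegree := fun h =>
          natDegree_lt_natDegree h (EuclideanDomain.mod_lt u h0)
        refine ⟨⟨e2, ?_, fun e => ?_⟩, ?_⟩
        · by_cases h : u % v = 0
          · simp [h]
          · exact (hlt h).le.trans e2
        · rw [← e3 e, and_comm]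
          exact and_congr_left fun he => EuclideanDomain.dvd_mod_iff he
        · simp only
          split_ifs with h
          · omega
          · have := hlt h
            omega⟩
  refine ⟨_, BR.dnorm hK hQ hx.fst, fun a => ?_⟩
  obtain ⟨⟨-, -, e3⟩, e4⟩ := h a
  by_cases h0 : (x a).1 = 0
  · refine ⟨Or.inr (by rw [h0, zero_mul]), fun e => ?_⟩
    rw [← e3 e, e4, h0]
    simp
  · refine ⟨Or.inl (monic_mul_leadingCoeff_inv h0), fun e => ?_⟩
    rw [← e3 e, e4, and_iff_left (dvd_zero e)]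
    exact IsUnit.dvd_mul_right (isUnit_C.2 (inv_ne_zero (leadingCoeff_ne_zero.2 h0)).isUnit)

end Crest.Agent.R312
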