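import Crest.Agent.R312.Top.Tab
import Crest.Agent.R312.Top.Code

/-!
# R312/Top/Main: the statement of S0484 from the core and the non-residues.
`α = {x : List ℕ // (x.headD 0).Prime ∧ ofCoeffList (x.headD 0) x.tail ≠ 0}`; `solv_all`; output `(l.map fun g => (pl g).map ZMod.val).flatMap encNatList`;
`exists_total`, `exists_dec`, `PT.polyTime`.
-/

set_option autoImplicit false

open Polynomial Finset Crest.Agent.Lib.PolyTime

noncomputable section

namespace Crest.Agent.R312

variable {α α' : Type} [Enc α] [Enc α']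

/-- the promise type -/
abbrev main_A : Type := {x : List ℕ // (x.headD 0).Prime ∧ PolyFactor.ofCoeffList (x.headD 0) x.tail ≠ 0}

instance main_fact (a : main_A) : Fact (a.1.headD 0).Prime := ⟨a.2.1⟩

theorem main_of (p : ℕ) (l : List ℕ) : PolyFactor.ofCoeffList p l = ofL (l.map (Nat.cast : ℕ → ZMod p)) := by
  rw [PolyFactor.ofCoeffList, ofL, List.length_map]
  exact Finset.sum_congr rfl fun k _ => by rw [← List.getD_map (f := (Nat.cast : ℕ → ZMod p)), Nat.cast_zero]

theorem main (hC : CoreSt) (hN : NonresSt) :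
    ∃ F : List Bool → List Bool, Crest.Complexity.PolyTime F ∧
      ∀ (p : ℕ) [Fact p.Prime] (f : Polynomial (ZMod p)), f ≠ 0 →
        (∀ g ∈ Crest.PolyFactor.factorOutput p (F (Crest.PolyFactor.encodeInst p f)),
            g.Monic ∧ Irreducible g) ∧
          Polynomial.C f.leadingCoeff *
              (Crest.PolyFactor.factorOutput p (F (Crest.PolyFactor.encodeInst p f))).prod = f := by
  have hv : PT fun a : main_A => a.1 := pt_val
  have hp : PT fun a : main_A => a.1.headD 0 := hv.headD (PT.const 0)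
  have hK := br_zmod hp
  have hf : DPT fun a : main_A => PolyFactor.ofCoeffList (a.1.headD 0) a.1.tail :=
    (hK.dofL ((DPT.of_pt hv.tail).map (f := fun a c => (c : ZMod (a.1.headD 0)))
      ((hK.comp pt_sigma_fst).dnat dpt_sigma_snd.pt))).of_eq fun a => (main_of _ _).symm
  obtain ⟨l, hl, h⟩ := solv_all hC hN hp hf fun a => a.2.2
  have h1 : PT fun a : main_A => (l a).map fun g => (pl g).map ZMod.val :=
    (hl.map (γ := fun _ => List ℕ) (f := fun a g => (pl g).map ZMod.val) ((dpt_pl dpt_sigma_snd).map (γ := fun _ => ℕ)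
      (f := fun _ x => ZMod.val x) (DPT.of_pt (dpt_zmod_val dpt_sigma_snd)))).pt
  obtain ⟨g, hg, e⟩ := exists_total (h1.flatMap (f := fun _ x => PolyFactor.encNatList x) (pt_encNatList PT.snd'))
  obtain ⟨dec, hd, e'⟩ := exists_dec
  refine ⟨fun s => g (enc (dec s)), (hg.comp hd.enc').polyTime, fun p _ f hf0 => ?_⟩
  have e1 := ofCoeffList_pl p f
  have hpp : p.Prime := Fact.out
  have h0 : PolyFactor.ofCoeffList p ((pl f).map ZMod.val) ≠ 0 := e1.symm ▸ hf0
  have e2 := e ⟨p :: (pl f).map ZMod.val, hpp, h0⟩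
  have h2 := h ⟨p :: (pl f).map ZMod.val, hpp, h0⟩
  generalize l ⟨p :: (pl f).map ZMod.val, hpp, h0⟩ = L at e2 h2
  change List (ZMod p)[X] at L
  change g (enc (p :: (pl f).map ZMod.val)) = (L.map fun g => (pl g).map ZMod.val).flatMap PolyFactor.encNatList at e2
  change Fac (PolyFactor.ofCoeffList p ((pl f).map ZMod.val)) L at h2
  have e3 : (L.map fun g => (pl g).map ZMod.val).map (PolyFactor.ofCoeffList p) = L := by
    rw [List.map_map]
    exact List.map_id'' (fun g => ofCoeffList_pl p g) L
  beta_reduce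
  rw [encodeInst_eq, e', e2, PolyFactor.factorOutput, decodeLists_flatMap, e3]
  rwa [e1] at h2

end Crest.Agent.R312
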