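import Crest.Agent.R312.Top.Gcd

/-!
# R312/Top/Minp: minimal polynomials modulo a monic polynomial.
`solv_min`: let `n = deg m`.  For `d ≤ n` the vectors `c : Fin (d + 1) → K` with `m ∣ ∑ c_k B ^ k` are the kernel of the rows
`j ↦ (k ↦ ((B ^ k) %ₘ m).coeff j)`, `j < n` (`solv_ker` with `S = K`, `φ = RingHom.id`; `Solv.pi` over `d : Fin (n + 1)`).  Simplest: take `d = n`
only, and take the gcd... or: choose the least `d` with a nonzero kernel vector (`List.find?`), normalise (`BR.dnorm`).  The set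
`{g | m ∣ g.comp B}` is an ideal; a monic member of least degree generates it.
-/

set_option autoImplicit false

open Polynomial Finset Crest.Agent.Lib.PolyTime

noncomputable section

namespace Crest.Agent.R312

variable {α α' : Type} [Enc α] [Enc α']

section
variable {F : Type} [Field F]

theorem IsG.monic {f g d : F[X]} (h : IsG f g d) (h0 : f ≠ 0 ∨ g ≠ 0) : d.Monic := by
  refine h.1.resolve_right fun hd => ?_
  have := (h.2 0).1 (hd ▸ dvd_rfl)
  simp only [zero_dvd_iff] at this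
  tauto

theorem IsG.bezout {f g d : F[X]} (h : IsG f g d) : ∃ u v, d = u * f + v * g := by
  classical
  obtain ⟨c, hc⟩ := (h.2 (EuclideanDomain.gcd f g)).2 ⟨EuclideanDomain.gcd_dvd_left f g, EuclideanDomain.gcd_dvd_right f g⟩
  refine ⟨EuclideanDomain.gcdA f g * c, EuclideanDomain.gcdB f g * c, ?_⟩
  rw [hc, EuclideanDomain.gcd_eq_gcd_ab]
  ring

/-- a gcd that is neither `1` nor `f` -/
theorem IsG.prp {f g d : F[X]} (h : IsG f g d) (hf : f.Monic) (h1 : ¬ IsCoprime f g) (h2 : ¬ f ∣ g) : Prp f d := by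
  have hd := h.monic (Or.inl hf.ne_zero)
  have hdv := (h.2 d).1 dvd_rfl
  refine ⟨hd, hdv.1, Nat.pos_of_ne_zero fun h0 => h1 ?_, lt_of_not_ge fun hle => h2 ?_⟩
  · obtain ⟨u, v, huv⟩ := h.bezout
    exact ⟨u, v, huv ▸ hd.natDegree_eq_zero.1 h0⟩
  · rw [eq_of_monic_of_dvd_of_natDegree_le hd hf hdv.1 hle]
    exact hdv.2

theorem minp_mk_comp (m g B : F[X]) : AdjoinRoot.mk m (g.comp B) = aeval (AdjoinRoot.mk m B) g := by
  rw [← AdjoinRoot.aeval_eq, aeval_comp, AdjoinRoot.aeval_eq]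

theorem IsMin.natDegree_le {m B μ : F[X]} (h : IsMin m B μ) (hm : m.Monic) : μ.natDegree ≤ m.natDegree := by
  have := (AdjoinRoot.powerBasis' hm).finite
  have h1 : μ ∣ minpoly F (AdjoinRoot.mk m B) := by
    rw [h.2, ← AdjoinRoot.mk_eq_zero, minp_mk_comp, minpoly.aeval]
  refine (natDegree_le_of_dvd h1 (minpoly.ne_zero_of_finite F _)).trans ((minpoly.natDegree_le _).trans ?_)
  rw [(AdjoinRoot.powerBasis' hm).finrank, AdjoinRoot.powerBasis'_dim]

theorem isMin_X {m : F[X]} (hm : m.Monic) : IsMin m X m := by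
  exact ⟨hm, fun g => by rw [comp_X]⟩

/-- `comp_assoc` -/
theorem IsMin.comp {m B μ b μ' : F[X]} (h : IsMin m B μ) (h' : IsMin μ b μ') : IsMin m (b.comp B %ₘ m) μ' := by
  refine ⟨h'.1, fun g => ?_⟩
  have e : AdjoinRoot.mk m (b.comp B %ₘ m) = AdjoinRoot.mk m (b.comp B) := by
    rw [modByMonic_eq_sub_mul_div, map_sub, map_mul, AdjoinRoot.mk_self, zero_mul, sub_zero]
  rw [h'.2, h.2, comp_assoc, ← AdjoinRoot.mk_eq_zero, ← AdjoinRoot.mk_eq_zero, minp_mk_comp m g, minp_mk_comp m g, e]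

/-- degree `0` or `1` forces `B` to be constant modulo `m` -/
theorem IsMin.two_le {m B μ : F[X]} (h : IsMin m B μ) (hB : ∀ c, ¬ m ∣ B - Polynomial.C c) : 2 ≤ μ.natDegree := by
  by_contra hlt
  obtain h0 | h1 : μ.natDegree = 0 ∨ μ.natDegree = 1 := by omega
  · refine hB 0 ?_
    have := (h.2 X).1 (by rw [h.1.natDegree_eq_zero.1 h0]; exact one_dvd _)
    simpa using this
  · refine hB (-μ.coeff 0) ?_
    have := (h.2 μ).1 dvd_rfl
    rw [h.1.eq_X_add_C h1] at this
    simpa using this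

/-- a proper factor of the minimal polynomial gives a proper factor of `m`: with `μ = μ₁ μ₂`, `m ∣ μ₁(B) μ₂(B)` but `m` divides
neither of them -/
theorem IsMin.lift {m B μ μ₁ d : F[X]} (h : IsMin m B μ) (hm : m.Monic) (h1 : Prp μ μ₁) (hd : IsG m (μ₁.comp B) d) :
    Prp m d := by
  obtain ⟨hμ1, ⟨μ₂, h2⟩, hpos, hlt⟩ := h1
  have hne : μ₂ ≠ 0 := fun h0 => h.1.ne_zero (by rw [h2, h0, mul_zero])
  refine hd.prp hm (fun hc => ?_) fun hdv => ?_
  · have h3 := (h.2 μ).1 dvd_rfl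
    rw [h2, mul_comp] at h3
    have h4 := natDegree_le_of_dvd ((h.2 μ₂).2 (hc.dvd_of_dvd_mul_left h3)) hne
    rw [h2, natDegree_mul hμ1.ne_zero hne] at h4
    omega
  · exact absurd (natDegree_le_of_dvd ((h.2 μ₁).2 hdv) hμ1.ne_zero) (not_le.2 hlt)

theorem minp_dvd_iff {h : F[X]} (hh : SS h) (g : F[X]) : h ∣ g ↔ ∀ x, h.IsRoot x → g.IsRoot x := by
  refine ⟨fun hd x hx => hx.dvd hd, fun H => ?_⟩
  rcases eq_or_ne g 0 with rfl | hg
  · exact dvd_zero _
  refine hh.2.2.dvd_of_roots_le_roots hh.1.ne_zero ((Multiset.le_iff_subset (nodup_roots hh.2.1)).2 fun x hx => ?_)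
  exact (mem_roots hg).2 (H x ((mem_roots hh.1.ne_zero).1 hx))

theorem minp_card {h : F[X]} [DecidableEq F] (hh : SS h) : h.roots.toFinset.card = h.natDegree := by
  rw [Multiset.toFinset_card_of_nodup (nodup_roots hh.2.1), hh.2.2.natDegree_eq_card_roots]

/-- for split squarefree `h` the minimal polynomial of `b` is the product over the values of `b` on the roots -/
theorem IsMin.ss {h b μ : F[X]} (hm : IsMin h b μ) (hh : SS h) :
    SS μ ∧ ∀ v, μ.IsRoot v ↔ ∃ x, h.IsRoot x ∧ b.eval x = v := by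
  classical
  have h0 := hh.1.ne_zero
  set ν : F[X] := ∏ v ∈ h.roots.toFinset.image fun x => b.eval x, (X - Polynomial.C v) with hν
  have hroot : ∀ v, ν.IsRoot v ↔ ∃ x, h.IsRoot x ∧ b.eval x = v := fun v => by
    simp only [hν, IsRoot.def, eval_prod, prod_eq_zero_iff, eval_sub, eval_X, eval_C, sub_eq_zero, mem_image,
      Multiset.mem_toFinset, mem_roots h0, exists_eq_right']
  have hd : μ ∣ ν := (hm.2 ν).2 ((minp_dvd_iff hh _).2 fun x hx => by
    rw [IsRoot.def, eval_comp]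
    exact (hroot _).2 ⟨x, hx, rfl⟩)
  have hν0 : ν ≠ 0 := (monic_prod_X_sub_C _ _).ne_zero
  refine ⟨⟨hm.1, Separable.of_dvd (separable_prod_X_sub_C_iff'.2 fun _ _ _ _ e => e) hd,
    Splits.of_dvd (Splits.prod fun v _ => Splits.X_sub_C v) hν0 hd⟩, fun v => ⟨fun hv => (hroot v).1 (hv.dvd hd), ?_⟩⟩
  rintro ⟨x, hx, rfl⟩
  have := hx.dvd ((hm.2 μ).1 dvd_rfl)
  rwa [IsRoot.def, eval_comp] at this

/-- counting roots: either the gcd is a proper factor, or the minimal polynomial is a smaller instance -/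
theorem Prog.step {h b d μ : F[X]} (hh : SS h) (hb : Prog h b) (hd : IsG h b d) (hm : IsMin h b μ) :
    Prp h d ∨ (2 ≤ μ.natDegree ∧ μ.natDegree < h.natDegree) := by
  classical
  obtain ⟨⟨x, y, hx, hy, hxy⟩, h1 | ⟨x', y', hx', hy', hne, he⟩⟩ := hb
  · left
    have key : ∀ x y, h.IsRoot x → h.IsRoot y → b.eval x = 0 → b.eval y = 1 → Prp h d := by
      intro x y hx hy e0 e1
      refine hd.prp hh.1 (fun hc => ?_) fun hc => ?_
      · obtain ⟨u, v, huv⟩ := hc
        have := congrArg (eval x) huv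
        rw [eval_add, eval_mul, eval_mul, hx.eq_zero, e0, eval_one] at this
        simp at this
      · exact one_ne_zero (e1.symm.trans (hy.dvd hc).eq_zero)
    rcases h1 x hx with e | e <;> rcases h1 y hy with e' | e'
    · exact absurd (e.trans e'.symm) hxy
    · exact key x y hx hy e e'
    · exact key y x hy hx e' e
    · exact absurd (e.trans e'.symm) hxy
  right
  obtain ⟨hs, hr⟩ := hm.ss hh
  have hmem : ∀ z, z ∈ h.roots.toFinset ↔ h.IsRoot z := fun z => by
    rw [Multiset.mem_toFinset, mem_roots hh.1.ne_zero]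
  have e : μ.roots.toFinset = h.roots.toFinset.image fun x => b.eval x := by
    ext v
    simp only [mem_image, hmem]
    rw [Multiset.mem_toFinset, mem_roots hs.1.ne_zero, hr]
  rw [← minp_card hs, ← minp_card hh, e]
  refine ⟨one_lt_card.2 ⟨_, mem_image_of_mem _ ((hmem x).2 hx), _, mem_image_of_mem _ ((hmem y).2 hy), hxy⟩,
    lt_of_le_of_ne card_image_le fun hc => ?_⟩
  exact hne (card_image_iff.1 hc (mem_coe.2 ((hmem x').2 hx')) (mem_coe.2 ((hmem y').2 hy')) he)

end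

/-- `μ ∣ X ^ p - X` (`FiniteField.X_pow_card_sub_X...`, `galois_poly_separable`, `Splits.of_dvd`) -/
theorem IsMin.ss_of_frob {p : ℕ} [Fact p.Prime] {m B μ : (ZMod p)[X]} (h : IsMin m B μ) (hB : m ∣ B ^ p - B) : SS μ := by
  have hp : 1 < p := (Fact.out : p.Prime).one_lt
  have hd : μ ∣ X ^ p - X := (h.2 _).2 (by simpa using hB)
  refine ⟨h.1, (galois_poly_separable p p dvd_rfl).of_dvd hd,
    Splits.of_dvd ?_ (FiniteField.X_pow_card_sub_X_ne_zero _ hp) hd⟩
  have h1 : roots (X ^ p - X : (ZMod p)[X]) = univ.val := by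
    have := FiniteField.roots_X_pow_card_sub_X (ZMod p)
    rwa [ZMod.card] at this
  rw [splits_iff_card_roots, h1, ← Finset.card_def, Finset.card_univ,
    FiniteField.X_pow_card_sub_X_natDegree_eq (ZMod p) hp, ZMod.card]

section
variable {F : Type} [Field F]

theorem minp_exists {m : F[X]} (hm : m.Monic) (B : F[X]) : ∃ μ, IsMin m B μ ∧ μ.natDegree ≤ m.natDegree := by
  have : Module.Finite F (AdjoinRoot m) := hm.finite_adjoinRoot
  have hint : IsIntegral F (AdjoinRoot.mk m B) := Algebra.IsIntegral.isIntegral _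
  refine ⟨minpoly F (AdjoinRoot.mk m B), ⟨minpoly.monic hint, fun g => ?_⟩, ?_⟩
  · rw [minpoly.dvd_iff, ← AdjoinRoot.mk_eq_zero, ← AdjoinRoot.aeval_eq, ← AdjoinRoot.aeval_eq, aeval_comp]
  · refine (minpoly.natDegree_le _).trans (le_of_eq ?_)
    rw [(AdjoinRoot.powerBasis' hm).finrank]
    rfl

theorem minp_coeff {N : ℕ} (c : Fin N → F) (k : ℕ) :
    (ofL (List.ofFn c)).coeff k = if h : k < N then c ⟨k, h⟩ else 0 := by
  rw [coeff_ofL]
  split_ifs with h
  · simp [List.getD_eq_getElem?_getD, h]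
  · rw [List.getD_eq_default _ _ (by simpa using h)]

theorem minp_ofL {N : ℕ} (c : Fin N → F) : ofL (List.ofFn c) = ∑ k : Fin N, c k • (X : F[X]) ^ k.val := by
  ext j
  rw [minp_coeff, finsetSum_coeff]
  simp only [coeff_smul, coeff_X_pow, smul_eq_mul, mul_ite, mul_one, mul_zero]
  split_ifs with h
  · rw [Finset.sum_eq_single ⟨j, h⟩]
    · simp
    · intro b _ hb
      rw [if_neg]
      intro e
      exact hb (Fin.ext e.symm)
    · simp
  · refine (Finset.sum_eq_zero fun b _ => if_neg ?_).symm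
    have := b.2
    omega

theorem minp_ker {m : F[X]} (hm : m.Monic) (B : F[X]) {N : ℕ} (c : Fin N → F) :
    (∀ r ∈ (List.range m.natDegree).map (fun j => fun k : Fin N => ((B ^ k.val) %ₘ m).coeff j),
      ∑ k, r k * c k = 0) ↔ m ∣ (ofL (List.ofFn c)).comp B := by
  have e : (ofL (List.ofFn c)).comp B %ₘ m = ∑ k : Fin N, c k • ((B ^ k.val) %ₘ m) := by
    rw [minp_ofL, Polynomial.sum_comp]
    simp only [smul_comp, X_pow_comp]
    have := map_sum (modByMonicHom m) (fun k : Fin N => c k • B ^ k.val) Finset.univ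
    simpa only [map_smul, modByMonicHom_apply] using this
  have hc : ∀ j, ((ofL (List.ofFn c)).comp B %ₘ m).coeff j = ∑ k : Fin N, ((B ^ k.val) %ₘ m).coeff j * c k := by
    intro j
    rw [e, finsetSum_coeff]
    simp only [coeff_smul, smul_eq_mul, mul_comm]
  rw [← modByMonic_eq_zero_iff_dvd hm]
  constructor
  · intro h
    ext j
    by_cases hj : j < m.natDegree
    · rw [hc, coeff_zero]
      exact h _ (List.mem_map.2 ⟨j, List.mem_range.2 hj, rfl⟩)
    · rw [coeff_zero]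
      refine coeff_eq_zero_of_degree_lt ((degree_modByMonic_lt _ hm).trans_le ?_)
      rw [degree_eq_natDegree hm.ne_zero]
      exact_mod_cast not_lt.1 hj
  · intro h r hr
    obtain ⟨j, -, rfl⟩ := List.mem_map.1 hr
    rw [← hc, h, coeff_zero]

end

variable {K : α → Type} [∀ a, Field (K a)] [∀ a, Fintype (K a)] [∀ a, Enc (K a)]

theorem solv_min (hK : BR K) (hQ : PT fun a => Fintype.card (K a)) {m B : ∀ a, (K a)[X]} (hm : DPT m) (hB : DPT B)
    (hmon : ∀ a, (m a).Monic) : Solv fun a μ => IsMin (m a) (B a) μ := by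
  classical
  have hn : UN fun a => (m a).natDegree + 1 := (un_natDegree hm).add (UN.const 1)
  have h1 : PT fun p : Σ a, Fin ((m a).natDegree + 1) => p.1 := pt_sigma_fst
  have hK1 : BR fun p : Σ a, Fin ((m a).natDegree + 1) => K p.1 := hK.comp h1
  have hN : UN fun p : Σ a, Fin ((m a).natDegree + 1) => p.2.val + 1 := hn.fin.add (UN.const 1)
  have hrows : DPT fun p : Σ a, Fin ((m a).natDegree + 1) => (List.range (m p.1).natDegree).map
      (fun j => fun k : Fin (p.2.val + 1) => ((B p.1 ^ k.val) %ₘ m p.1).coeff j) := by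
    have hn1 : UN fun p : Σ a, Fin ((m a).natDegree + 1) => (m p.1).natDegree := (un_natDegree hm).comp h1
    refine DPT.rangeMap' hn1 (DPT.pi (hN.comp pt_sigma_fst) ?_)
    have hφ : PT fun r : Σ q : Σ p : Σ a, Fin ((m a).natDegree + 1), Fin (m p.1).natDegree, Fin (q.1.2.val + 1) =>
        r.1.1.1 := (pt_sigma_fst.comp pt_sigma_fst).comp pt_sigma_fst
    have hK' := hK.comp hφ
    have hj : DPT fun r : Σ q : Σ p : Σ a, Fin ((m a).natDegree + 1), Fin (m p.1).natDegree, Fin (q.1.2.val + 1) =>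
        r.1.2 := dpt_sigma_snd.comp pt_sigma_fst
    have hk : DPT fun r : Σ q : Σ p : Σ a, Fin ((m a).natDegree + 1), Fin (m p.1).natDegree, Fin (q.1.2.val + 1) =>
        r.2 := dpt_sigma_snd
    exact hK'.dcoeff (BR.dpowmod hK' (hB.comp hφ) (hm.comp hφ) (fun r => hmon _) hk.finVal) hj.finVal
  obtain ⟨L, hL, hLs⟩ := solv_ker (K := fun p : Σ a, Fin ((m a).natDegree + 1) => K p.1) hK1 (hQ.comp h1) hN hrows
  have hP : DPT fun p : Σ a, Fin ((m a).natDegree + 1) => (L p).map fun w => ofL (List.ofFn w) :=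
    hL.map ((hK1.comp pt_sigma_fst).dofL (DPT.ofFn.1 dpt_sigma_snd))
  let l : ∀ a, List (K a)[X] := fun a =>
    (List.finRange ((m a).natDegree + 1)).flatMap fun d => (L ⟨a, d⟩).map fun w => ofL (List.ofFn w)
  have hl : DPT l := (dpt_finRange hn).flatMap hP
  have hker : ∀ p c, c ∈ Submodule.span (K p.1) {v | v ∈ L p} ↔ m p.1 ∣ (ofL (List.ofFn c)).comp (B p.1) := by
    intro p c
    rw [← minp_ker (hmon _)]
    have := (hLs p).2 (RingHom.id _) c
    simpa only [RingHom.id_apply, exists_eq_right] using this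
  have hp : PT fun x : Σ a, (K a)[X] => x.2 ≠ 0 ∧ ∀ h ∈ l x.1, h ≠ 0 → x.2.natDegree ≤ h.natDegree := by
    refine PT.and ((dpt_sigma_snd.eq ((MR.poly hK).comp pt_sigma_fst).zero).not) ?_
    refine DPT.forallMem (hl.comp pt_sigma_fst)
      (p := fun (x : Σ a, (K a)[X]) (h : (K x.1)[X]) => h ≠ 0 → x.2.natDegree ≤ h.natDegree) ?_
    have hφ : PT fun y : Σ x : Σ a, (K a)[X], (K x.1)[X] => y.1.1 := pt_sigma_fst.comp pt_sigma_fst
    have h2 : DPT fun y : Σ x : Σ a, (K a)[X], (K x.1)[X] => y.2 := dpt_sigma_snd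
    have h3 : DPT fun y : Σ x : Σ a, (K a)[X], (K x.1)[X] => y.1.2 := dpt_sigma_snd.comp pt_sigma_fst
    exact PT.imp (h2.eq ((MR.poly hK).comp hφ).zero).not ((un_natDegree h3).1.nat_le (un_natDegree h2).1)
  have hex : ∀ a, ∃ μ, IsMin (m a) (B a) μ ∧ (∀ g ∈ l a, μ ∣ g) ∧ ∃ g ∈ l a, g ≠ 0 ∧ g.natDegree ≤ μ.natDegree := by
    intro a
    obtain ⟨μ, hμ, hd⟩ := minp_exists (hmon a) (B a)
    refine ⟨μ, hμ, fun g hg => ?_, ?_⟩
    · obtain ⟨d, -, hg⟩ := List.mem_flatMap.1 hg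
      obtain ⟨w, hw, rfl⟩ := List.mem_map.1 hg
      exact (hμ.2 _).2 ((hker ⟨a, d⟩ w).1 (Submodule.subset_span hw))
    · let d : Fin ((m a).natDegree + 1) := ⟨μ.natDegree, Nat.lt_succ_of_le hd⟩
      let c : Fin (μ.natDegree + 1) → K a := fun k => μ.coeff k.val
      have hc : ofL (List.ofFn c) = μ := by
        ext k
        rw [minp_coeff]
        split_ifs with h
        · rfl
        · exact (coeff_eq_zero_of_natDegree_lt (by omega)).symm
      have hcs : c ∈ Submodule.span (K a) {v | v ∈ L ⟨a, d⟩} := by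
        refine (hker ⟨a, d⟩ c).2 ?_
        show m a ∣ (ofL (List.ofFn c)).comp (B a)
        rw [hc]
        exact (hμ.2 μ).1 dvd_rfl
      have hw : ∃ w ∈ L ⟨a, d⟩, w ≠ 0 := by
        by_contra hno
        push Not at hno
        have hbot : Submodule.span (K a) {v | v ∈ L ⟨a, d⟩} = ⊥ := Submodule.span_eq_bot.2 hno
        rw [hbot, Submodule.mem_bot] at hcs
        have := congrFun hcs (Fin.last _)
        exact hμ.1.ne_zero (leadingCoeff_eq_zero.1 this)
      obtain ⟨w, hw, hw0⟩ := hw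
      refine ⟨ofL (List.ofFn w), List.mem_flatMap.2 ⟨d, List.mem_finRange _, List.mem_map.2 ⟨w, hw, rfl⟩⟩, ?_, ?_⟩
      · intro h0
        apply hw0
        funext k
        have := minp_coeff w k.val
        rw [h0, coeff_zero, dif_pos k.2] at this
        exact this.symm
      · refine natDegree_le_iff_coeff_eq_zero.2 fun k hk => ?_
        rw [minp_coeff, dif_neg]
        show ¬ k < μ.natDegree + 1
        omega
  obtain ⟨g, hg, hgs⟩ := Solv.chooseL hl
    (p := fun a g => g ≠ 0 ∧ ∀ h ∈ l a, h ≠ 0 → g.natDegree ≤ h.natDegree) hp (fun a => by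
      obtain ⟨μ, -, -, g, hg, hg0, -⟩ := hex a
      obtain ⟨x, hx, hmin⟩ := Finset.exists_min_image ((l a).toFinset.filter fun g => g ≠ 0) natDegree
        ⟨g, Finset.mem_filter.2 ⟨List.mem_toFinset.2 hg, hg0⟩⟩
      obtain ⟨hx1, hx2⟩ := Finset.mem_filter.1 hx
      exact ⟨x, List.mem_toFinset.1 hx1, hx2, fun h hh h0 =>
        hmin h (Finset.mem_filter.2 ⟨List.mem_toFinset.2 hh, h0⟩)⟩)
  refine ⟨_, hK.dnorm hQ hg, fun a => ?_⟩
  obtain ⟨μ, hμ, hdvd, g', hg', hg0, hdeg⟩ := hex a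
  obtain ⟨hga, hga0, hmin⟩ := hgs a
  have e : g a * Polynomial.C (g a).leadingCoeff⁻¹ = μ := by
    refine eq_of_monic_of_dvd_of_natDegree_le hμ.1 (monic_mul_leadingCoeff_inv hga0) ((hdvd _ hga).mul_right _) ?_
    rw [natDegree_mul_leadingCoeff_inv _ hga0]
    exact (hmin g' hg' hg0).trans hdeg
  show IsMin (m a) (B a) (g a * Polynomial.C (g a).leadingCoeff⁻¹)
  rw [e]
  exact hμ

end Crest.Agent.R312
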