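import Crest.Agent.R312.Top.Cv
import Crest.Agent.R312.R1

/-!
# R312/Top/Prog: the core gives `Prog`.
The roots of `C.f = h.map φ` are the images of the roots of `h` (`h` splits), so `F0 ≤ φ.fieldRange`; the coefficients of `C.itp b` lie in `F0`
(`coeff_itp_mem`); `enc b = enc (C.itp b)` by definition of `encFn`; `b₀ = ofL ((pl (itp b)).map ret)` satisfies `b₀.map φ = itp b`.
-/

set_option autoImplicit false

open Polynomial Finset Crest.Agent.Lib.PolyTime

noncomputable section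

namespace Crest.Agent.R312

variable {α α' : Type} [Enc α] [Enc α']

theorem prog_of_nice {F : Type} [Field F] (C : Cv) (φ : F →+* C.K) {h : F[X]} (hs : SS h) (hf : C.f = h.map φ) {b : C.S1}
    (hb : C.Nice b) {ret : C.K → F} (hret : ∀ c, ret (φ c) = c) : Prog h (ofL ((pl (C.itp b)).map ret)) := by
  have H1 : ∀ j : C.Ω, ∃ x, h.IsRoot x ∧ φ x = C.rt j := by
    intro j
    have hj : (h.map φ).IsRoot (C.rt j) := hf ▸ C.rt_root j
    obtain ⟨x, hx⟩ := hs.2.2.mem_range_of_isRoot hs.1.ne_zero hj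
    refine ⟨x, ?_, hx⟩
    rw [← hx, IsRoot, eval_map, eval₂_at_apply, map_eq_zero] at hj
    exact hj
  have H2 : ∀ x, h.IsRoot x → ∃ j : C.Ω, C.rt j = φ x := by
    intro x hx
    refine ⟨⟨φ x, ?_⟩, rfl⟩
    rw [hf, IsRoot, eval_map, eval₂_at_apply, hx.eq_zero, map_zero]
  have hF : C.F0 ≤ φ.fieldRange := by
    refine Subfield.closure_le.2 ?_
    rintro _ ⟨j, rfl⟩
    obtain ⟨x, -, hx⟩ := H1 j
    exact ⟨x, hx⟩
  have h0 : ret 0 = 0 := by simpa using hret 0
  have hmap : (ofL ((pl (C.itp b)).map ret)).map φ = C.itp b := by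
    ext k
    obtain ⟨c, hc⟩ := hF (C.coeff_itp_mem hb.1 k)
    rw [coeff_map, coeff_ofL, ← h0, List.getD_map, pl_getD, ← hc, hret]
  have hev : ∀ x (j : C.Ω), C.rt j = φ x → φ ((ofL ((pl (C.itp b)).map ret)).eval x) = b j := by
    intro x j hj
    rw [← eval₂_at_apply, ← eval_map, hmap, ← hj]
    exact C.eval_itp b j
  obtain ⟨-, ⟨i, j, hij⟩, h3⟩ := hb
  refine ⟨?_, ?_⟩
  · obtain ⟨x, hx, ex⟩ := H1 i
    obtain ⟨y, hy, ey⟩ := H1 j
    refine ⟨x, y, hx, hy, fun e => hij ?_⟩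
    rw [← hev x i ex.symm, ← hev y j ey.symm, e]
  · rcases h3 with h3 | h3
    · refine Or.inl fun x hx => ?_
      obtain ⟨k, hk⟩ := H2 x hx
      have h4 : b k * b k = b k := congrFun h3 k
      rw [← hev x k hk, ← map_mul] at h4
      exact (IsIdempotentElem.iff_eq_zero_or_one).1 (φ.injective h4)
    · simp only [Function.Injective, not_forall] at h3
      obtain ⟨k, l, e, hkl⟩ := h3
      obtain ⟨x, hx, ex⟩ := H1 k
      obtain ⟨y, hy, ey⟩ := H1 l
      refine Or.inr ⟨x, y, hx, hy, fun e' => hkl (C.rt_inj ?_), φ.injective ?_⟩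
      · rw [← ex, ← ey, e']
      · rw [hev x k ex.symm, hev y l ey.symm, e]

variable {p : α → ℕ} [∀ a, Fact (p a).Prime]

theorem solv_prog (hC : CoreSt) (hN : NonresSt) (hp : PT p) {h : ∀ a, (ZMod (p a))[X]} (hh : DPT h) (hs : ∀ a, SS (h a))
    (h2 : ∀ a, 2 ≤ (h a).natDegree) (hlt : ∀ a, (h a).natDegree < p a) {t : ∀ a, List (ZMod (p a))[X]} (ht : DPT t)
    (hT : ∀ a, Tab (p a) (h a).natDegree (t a)) : Solv fun a b => Prog (h a) b := by
  obtain ⟨C, φ, ret, hG, hf, hret, hr⟩ := exists_cv hN hp hh hs h2 hlt ht hT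
  obtain ⟨b, hb, hn⟩ := hC C hG
  have hi : DPT fun a => (C a).itp (b a) := hb
  exact ⟨_, (br_zmod hp).dofL ((dpt_pl hi).map hret), fun a => prog_of_nice (C a) (φ a) (hs a) (hf a) (hn a) (hr a)⟩

end Crest.Agent.R312
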