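import Crest.Agent.R312.Top.Prog
import Crest.Agent.R312.Top.Minp

/-!
# R312/Top/SS: proper factors of split squarefree polynomials.
`solv_small`: `p` is unary; choose `c < p` with `h.eval c = 0` (`Solv.choose`, `En.fin`), output `X - C c`.
`solv_big`: `Solv.loopI` on states `(B, μ, o)`; simplest is the state `(B, μ)` with invariant `IsMin h B μ ∧ SS μ ∧ 2 ≤ deg μ ∧ deg B ≤ deg h`
plus a component `d : Option _` for the answer; start `(X, h)` (`isMin_X`); step: `b` from `solv_prog` for `μ` (`IsMin.natDegree_le`, `Tab.mono`), `d = gcd μ b`,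
`μ' = ` minimal polynomial of `b` mod `μ`; if `0 < deg d < deg μ` answer `gcd h (d.comp B)` (`IsMin.lift`), else continue with
`(b.comp B %ₘ h, μ')` (`Prog.step`, `IsMin.comp`, `IsMin.ss`); measure `deg μ`.
-/

set_option autoImplicit false

open Polynomial Finset Crest.Agent.Lib.PolyTime

noncomputable section

namespace Crest.Agent.R312

variable {α α' : Type} [Enc α] [Enc α']

variable {p : α → ℕ} [∀ a, Fact (p a).Prime]

theorem solv_small (hp : UN p) {h : ∀ a, (ZMod (p a))[X]} (hh : DPT h) (hs : ∀ a, SS (h a))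
    (h2 : ∀ a, 2 ≤ (h a).natDegree) : Solv fun a g => Prp (h a) g := by
  have hK : BR fun a => ZMod (p a) := br_zmod hp.1
  have h1 : PT fun x : Σ a, Fin (p a) => x.1 := pt_sigma_fst
  have hK' : BR fun x : Σ a, Fin (p a) => ZMod (p x.1) := hK.comp h1
  obtain ⟨c, hc, hcP⟩ := Solv.choose (En.fin hp) (p := fun a (c : Fin (p a)) => (h a).eval (c.val : ZMod (p a)) = 0)
    (DPT.eq (hK'.deval (hh.comp h1) (hK'.dnat hp.fin.1)) hK'.zero) fun a => by
      obtain ⟨x, hx⟩ := (hs a).2.2.exists_eval_eq_zero (degree_ne_of_natDegree_ne (n := 0) (by have := h2 a; omega))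
      exact ⟨⟨x.val, x.val_lt⟩, by simpa using hx⟩
  refine ⟨fun a => X - Polynomial.C ((c a).val : ZMod (p a)), hK.poly.dsub hK.dX (hK.dC (hK.dnat hc.finVal)),
    fun a => ⟨monic_X_sub_C _, dvd_iff_isRoot.2 (hcP a), ?_, ?_⟩⟩
  · rw [natDegree_X_sub_C]
    exact one_pos
  · rw [natDegree_X_sub_C]
    exact h2 a

theorem solv_big (hC : CoreSt) (hN : NonresSt) (hp : PT p) {h : ∀ a, (ZMod (p a))[X]} (hh : DPT h) (hs : ∀ a, SS (h a))
    (h2 : ∀ a, 2 ≤ (h a).natDegree) (hlt : ∀ a, (h a).natDegree < p a) {t : ∀ a, List (ZMod (p a))[X]} (ht : DPT t)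
    (hT : ∀ a, Tab (p a) (h a).natDegree (t a)) : Solv fun a g => Prp (h a) g := by
  have hK : BR fun a => ZMod (p a) := br_zmod hp
  have hQ := pt_card_zmod hp
  let I : ∀ a, (ZMod (p a))[X] × (ZMod (p a))[X] → Prop := fun a x =>
    IsMin (h a) x.1 x.2 ∧ SS x.2 ∧ 2 ≤ x.2.natDegree ∧ x.1.natDegree ≤ (h a).natDegree
  have h1 : PT fun x : Σ a, {x // I a x} => x.1 := pt_sigma_fst
  have hx : DPT fun x : Σ a, {x // I a x} => x.2.1 := dpt_sigma_snd.val
  have hK' : BR fun x : Σ a, {x // I a x} => ZMod (p x.1) := hK.comp h1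
  have hle : ∀ a x, I a x → x.2.natDegree ≤ (h a).natDegree := fun a x hI => hI.1.natDegree_le (hs _).1
  obtain ⟨b, hb, hbP⟩ := solv_prog (p := fun x : Σ a, {x // I a x} => p x.1) hC hN (hp.comp h1) hx.snd
    (fun x => x.2.2.2.1) (fun x => x.2.2.2.2.1) (fun x => (hle _ _ x.2.2).trans_lt (hlt _)) (ht.comp h1)
    fun x => (hT _).mono (hle _ _ x.2.2)
  obtain ⟨d, hd, hdP⟩ := solv_gcd hK' (hQ.comp h1) hx.snd hb
  obtain ⟨μ, hμ, hμP⟩ := solv_min hK' (hQ.comp h1) hx.snd hb fun x => x.2.2.2.1.1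
  obtain ⟨e, he, heP⟩ := solv_gcd hK' (hQ.comp h1) (hh.comp h1) (hK'.dcomp hd hx.fst)
  obtain ⟨g, hg, hgs⟩ := hK.poly_size (un_natDegree hh).2
  obtain ⟨x, hx', hxP⟩ := Solv.loopI I (fun a x => ∀ hI : I a x, Prp x.2 (d ⟨a, x, hI⟩)) (fun _ x => x.2.natDegree)
    (g := fun a => g a + g a + 1 + (h a).natDegree) (((hg.add hg).add (PB.const 1)).add (un_natDegree hh).2)
    ⟨fun a => (X, h a), hK.dX.pair hh, fun a =>
      ⟨isMin_X (hs a).1, hs a, h2 a, natDegree_X_le.trans (one_le_two.trans (h2 a))⟩⟩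
    (fun a x hI => by
      have e1 := hgs a _ hI.2.2.2
      have e2 := hgs a _ (hle a x hI)
      have e3 := hle a x hI
      rw [esize_prod]
      constructor <;> omega)
    ⟨fun x => if 0 < (d x).natDegree ∧ (d x).natDegree < x.2.1.2.natDegree then none
        else some ((b x).comp x.2.1.1 %ₘ h x.1, μ x),
      DPT.ite (((PT.const 0).nat_lt (un_natDegree hd).1).and ((un_natDegree hd).1.nat_lt (un_natDegree hx.snd).1))
        DPT.none ((hK'.dmod (hK'.dcomp hb hx.fst) (hh.comp h1) fun x => (hs _).1).pair hμ).some, fun x => by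
      beta_reduce
      split_ifs with hc
      · exact ⟨fun _ _ => ⟨(hdP x).monic (Or.inl x.2.2.2.1.1.ne_zero), (((hdP x).2 _).1 dvd_rfl).1, hc.1, hc.2⟩,
          fun y hy => by simp at hy⟩
      · refine ⟨fun hy => by simp at hy, fun y hy => ?_⟩
        obtain rfl := Option.some.inj hy
        rcases (hbP x).step x.2.2.2.1 (hdP x) (hμP x) with h3 | h3
        · exact absurd h3.2.2 hc
        · exact ⟨⟨x.2.2.1.comp (hμP x), ((hμP x).ss x.2.2.2.1).1, h3.1, natDegree_modByMonic_le _ (hs _).1⟩, h3.2⟩⟩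
  exact ⟨fun a => e ⟨a, x a, (hxP a).1⟩, he.comp (pt_sigma_mk PT.id' (hx'.mk fun a => (hxP a).1)),
    fun a => (hxP a).1.1.lift (hs a).1 ((hxP a).2 _) (heP ⟨a, x a, (hxP a).1⟩)⟩

theorem solv_ss (hC : CoreSt) (hN : NonresSt) (hp : PT p) {h : ∀ a, (ZMod (p a))[X]} (hh : DPT h) (hs : ∀ a, SS (h a))
    (h2 : ∀ a, 2 ≤ (h a).natDegree) {t : ∀ a, List (ZMod (p a))[X]} (ht : DPT t)
    (hT : ∀ a, Tab (p a) (h a).natDegree (t a)) : Solv fun a g => Prp (h a) g := by
  refine Solv.cases (c := fun a => (h a).natDegree < p a) ((un_natDegree hh).1.nat_lt hp) ?_ ?_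
  · exact solv_big (p := fun a : {a // (h a).natDegree < p a} => p a.1) hC hN (hp.comp pt_val) (hh.comp pt_val)
      (fun a => hs _) (fun a => h2 _) (fun a => a.2) (ht.comp pt_val) fun a => hT _
  · exact solv_small (p := fun a : {a // ¬ (h a).natDegree < p a} => p a.1)
      (UN.of_le (hp.comp pt_val) ((un_natDegree hh).comp pt_val).2 fun a => not_lt.1 a.2) (hh.comp pt_val)
      (fun a => hs _) fun a => h2 _

end Crest.Agent.R312
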