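import Crest.Agent.R312.Top.SS
import Crest.Agent.R312.Top.Berl

/-!
# R312/Top/Split: a proper factor or a proof of irreducibility.
Cases (`Solv.cases`): `f' = 0` (`prp_contract`); `d = gcd f f'` with `0 < deg d` (`IsG.prp`; `f ∤ f'` by degrees); else `d = 1`, `f` is separable
(`IsG.bezout`): `solv_berl`; `none` ⇒ irreducible (`exists_berl`); `some B` ⇒ `μ` from `solv_min`, `IsMin.ss_of_frob`, `IsMin.two_le`,
`IsMin.natDegree_le`, `solv_ss`, `solv_gcd`, `IsMin.lift`.
-/

set_option autoImplicit false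

open Polynomial Finset Crest.Agent.Lib.PolyTime

noncomputable section

namespace Crest.Agent.R312

variable {α α' : Type} [Enc α] [Enc α']

variable {p : α → ℕ} [∀ a, Fact (p a).Prime]

/-- the Berlekamp branch -/
theorem solv_of_berl (hC : CoreSt) (hN : NonresSt) (hp : PT p) {f B : ∀ a, (ZMod (p a))[X]} (hf : DPT f) (hB : DPT B)
    (hm : ∀ a, (f a).Monic) (h1 : ∀ a, f a ∣ B a ^ p a - B a) (h2 : ∀ a c, ¬ f a ∣ B a - Polynomial.C c)
    {t : ∀ a, List (ZMod (p a))[X]} (ht : DPT t) (hT : ∀ a, Tab (p a) (f a).natDegree (t a)) :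
    Solv fun a g => Prp (f a) g := by
  have hK : BR fun a => ZMod (p a) := br_zmod hp
  have hQ : PT fun a => Fintype.card (ZMod (p a)) := hp.of_eq fun a => (ZMod.card _).symm
  obtain ⟨μ, hμ, h3⟩ := solv_min hK hQ hf hB hm
  obtain ⟨g, hg, h4⟩ := solv_ss hC hN hp hμ (fun a => (h3 a).ss_of_frob (h1 a)) (fun a => (h3 a).two_le (h2 a)) ht
    fun a => (hT a).mono ((h3 a).natDegree_le (hm a))
  exact (solv_gcd hK hQ hf (hK.dcomp hg hB)).mono fun a d hd => (h3 a).lift (hm a) (h4 a) hd

theorem solv_split (hC : CoreSt) (hN : NonresSt) (hp : PT p) {f : ∀ a, (ZMod (p a))[X]} (hf : DPT f)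
    (hm : ∀ a, (f a).Monic) (h0 : ∀ a, 0 < (f a).natDegree) {t : ∀ a, List (ZMod (p a))[X]} (ht : DPT t)
    (hT : ∀ a, Tab (p a) (f a).natDegree (t a)) :
    Solv fun a (o : Option (ZMod (p a))[X]) => (o = none → Irreducible (f a)) ∧ ∀ g, o = some g → Prp (f a) g := by
  classical
  have hK : BR fun a => ZMod (p a) := br_zmod hp
  have hQ : PT fun a => Fintype.card (ZMod (p a)) := hp.of_eq fun a => (ZMod.card _).symm
  have hp0 : ∀ a, p a ≠ 0 := fun a => (Fact.out : (p a).Prime).ne_zero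
  obtain ⟨o, ho, h1⟩ := solv_berl hp hf hm
  obtain ⟨d, hd, h2⟩ := solv_gcd hK hQ hf (hK.dderivative hf)
  refine Solv.cases (c := fun a => (o a).isSome = true) ho.isSome ?_ ?_
  · have hB := fun a : {a // (o a).isSome = true} => (h1 a.1).2 ((o a.1).get a.2) (Option.some_get a.2).symm
    obtain ⟨g, hg, h3⟩ := solv_of_berl (p := fun a : {a // (o a).isSome = true} => p a.1) hC hN (hp.comp pt_val)
      (hf.comp pt_val) ((ho.comp pt_val).optGet fun a => a.2) (fun a => hm _) (fun a => (hB a).1) (fun a => (hB a).2)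
      (ht.comp pt_val) fun a => hT _
    refine Solv.of_dpt hg.some fun a => ⟨fun h => (by cases h), fun g' h => ?_⟩
    cases h
    exact h3 a
  · have hF : DPT fun a => if derivative (f a) = 0 then some (contract (p a) (f a)) else
        if d a = 1 then none else some (d a) :=
      DPT.ite ((hK.dderivative hf).eq hK.poly.zero) (hK.dcontract hf hp hp0).some
        (DPT.ite (hd.eq hK.poly.one) DPT.none hd.some)
    refine Solv.of_dpt (hF.comp pt_val) fun ⟨a, ha⟩ => ?_
    dsimp only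
    split_ifs with e1 e2
    · refine ⟨fun h => (by cases h), fun g h => ?_⟩
      cases h
      exact prp_contract (hm a) (h0 a) e1
    · refine ⟨fun _ => ?_, fun g h => by cases h⟩
      by_contra hi
      obtain ⟨u, v, huv⟩ := (h2 a).bezout
      obtain ⟨B, hB1, hB2⟩ := exists_berl ⟨u, v, huv.symm.trans e2⟩ (h0 a) hi
      obtain ⟨c, hc⟩ := (h1 a).1 (Option.not_isSome_iff_eq_none.1 ha) B hB1
      exact hB2 c hc
    · refine ⟨fun h => (by cases h), fun g h => ?_⟩
      cases h
      refine (h2 a).prp (hm a) (fun hc => e2 ?_) fun hv => ?_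
      · have h3 := ((h2 a).2 _).1 dvd_rfl
        exact ((h2 a).monic (Or.inr e1)).eq_one_of_isUnit (hc.isUnit_of_dvd' h3.1 h3.2)
      · exact absurd (natDegree_le_of_dvd hv e1) (not_le.2 (natDegree_derivative_lt (h0 a).ne'))

end Crest.Agent.R312
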