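import Crest.Agent.R312.Top.Fac

/-!
# R312/Top/Tab: the table, bottom-up.
`Solv.iter` with invariant `t.length = k + 1 ∧ Tab p k t ∧ ∀ g ∈ t, deg g ≤ N`; start `[0]`; step: if `k + 1` is prime (`pt_prime`), factor
`cyclotomic (k + 1) = ∑ i ∈ range (k + 1), X ^ i` (`cyclotomic_prime`; degree `k ≥ 1`, monic) with `solv_fac` and append the first factor
(`getD 0 0`); else append `0`.
-/

set_option autoImplicit false

open Polynomial Finset Crest.Agent.Lib.PolyTime

noncomputable section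

namespace Crest.Agent.R312

variable {α α' : Type} [Enc α] [Enc α']

variable {p : α → ℕ} [∀ a, Fact (p a).Prime]

theorem Tab_snoc {r : ℕ} [Fact r.Prime] {k : ℕ} {t : List (ZMod r)[X]} (hl : t.length = k + 1) (h : Tab r k t)
    {g : (ZMod r)[X]} (hg : (k + 1).Prime → g.Monic ∧ Irreducible g ∧ g ∣ cyclotomic (k + 1) (ZMod r)) :
    Tab r (k + 1) (t ++ [g]) := fun q hq h1 h2 => by
  rcases hq.eq_or_lt with rfl | hq
  · rw [List.getD_append_right _ _ _ _ hl.le, hl, Nat.sub_self]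
    exact hg h1
  · rw [List.getD_append _ _ _ _ (by omega)]
    exact h q (by omega) h1 h2

theorem Tab_next (hC : CoreSt) (hN : NonresSt) (hp : PT p) {k : α → ℕ} (hk : UN k) {t : ∀ a, List (ZMod (p a))[X]}
    (ht : DPT t) (hT : ∀ a, Tab (p a) (k a) (t a)) : Solv fun a (g : (ZMod (p a))[X]) => g.natDegree ≤ k a ∧
      ((k a + 1).Prime → g.Monic ∧ Irreducible g ∧ g ∣ cyclotomic (k a + 1) (ZMod (p a))) := by
  refine Solv.cases (pt_prime (hk.add (UN.const 1))) ?_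
    ⟨fun _ => 0, ((br_zmod hp).comp pt_val).poly.zero, fun a => ⟨by simp, fun h => (a.2 h).elim⟩⟩
  have hR := ((br_zmod hp).comp (pt_val (p := fun a => (k a + 1).Prime))).poly
  have hu := (hk.add (UN.const 1)).comp (pt_val (p := fun a => (k a + 1).Prime))
  have hd : ∀ a : {a // (k a + 1).Prime}, (cyclotomic (k a.1 + 1) (ZMod (p a.1))).natDegree = k a.1 := fun a => by
    rw [natDegree_cyclotomic, Nat.totient_prime a.2, Nat.add_sub_cancel]
  have hf : DPT fun a : {a // (k a + 1).Prime} => cyclotomic (k a.1 + 1) (ZMod (p a.1)) :=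
    (hR.rangeSum hu (x := fun a i => X ^ i) ((hR.comp pt_sigma_fst).npow
      ((((br_zmod hp).comp pt_val).dX).comp pt_sigma_fst) hu.fin)).of_eq fun a =>
        (@cyclotomic_prime _ _ _ ⟨a.2⟩).symm
  obtain ⟨l, hl, h⟩ := solv_fac hC hN (hp.comp pt_val) hf (fun a => cyclotomic_ne_zero _ _) (ht.comp pt_val)
    fun a => (hd a).symm ▸ hT a.1
  refine ⟨fun a => (l a).getD 0 0, hl.getD (PT.const 0) hR.zero, fun a => ?_⟩
  obtain ⟨h1, h2⟩ := h a
  rw [(cyclotomic.monic _ _).leadingCoeff, map_one, one_mul] at h2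
  have h3 := hd a
  have h4 := a.2.two_le
  beta_reduce
  generalize l a = L at h1 h2 ⊢
  rcases L with _ | ⟨g, L⟩
  · rw [← h2] at h3
    simp at h3
    omega
  have h5 : g ∣ cyclotomic (k a.1 + 1) (ZMod (p a.1)) := ⟨_, h2.symm.trans List.prod_cons⟩
  exact ⟨h3 ▸ natDegree_le_of_dvd h5 (cyclotomic_ne_zero _ _), fun _ => ⟨(h1 g (by simp)).1, (h1 g (by simp)).2, h5⟩⟩

theorem solv_table (hC : CoreSt) (hN : NonresSt) (hp : PT p) {N : α → ℕ} (hn : UN N) :
    Solv fun a (t : List (ZMod (p a))[X]) => Tab (p a) (N a) t := by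
  obtain ⟨g, hg, H⟩ := (br_zmod hp).poly_size hn.2
  let I : ∀ a, ℕ → List (ZMod (p a))[X] → Prop := fun a k t =>
    k ≤ N a ∧ t.length = k + 1 ∧ Tab (p a) k t ∧ ∀ x ∈ t, x.natDegree ≤ N a
  refine (Solv.iter hn I (g := fun a => (N a + 1) * (g a + 1) + 1)
    (((hn.2.add (PB.const 1)).mul (hg.add (PB.const 1))).add (PB.const 1))
    ⟨fun _ => [0], (br_zmod hp).poly.zero.cons DPT.nil, fun a => ⟨Nat.zero_le _, rfl, fun q hq h => ?_, by simp⟩⟩
    (fun a k t h => (esize_list_le fun x hx => H a x (h.2.2.2 x hx)).trans ?_) ?_).mono fun a t h => h.2.2.1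
  · have := h.two_le
    omega
  · rw [h.2.1]
    have := h.1
    gcongr
  have h1 := (dpt_sigma_snd (β := fun a => {y : Fin (N a) × List (ZMod (p a))[X] // I a y.1.val y.2})).val
  obtain ⟨x, hx, h⟩ := Tab_next hC hN (hp.comp pt_sigma_fst)
    (UN.of_le h1.fst.finVal (hn.2.comp pt_sigma_fst) fun j => j.2.1.1.2.le) h1.snd fun j => j.2.2.2.2.1
  refine ⟨fun j => j.2.1.2 ++ [x j], h1.snd.append (hx.cons DPT.nil), fun j => ⟨j.2.1.1.2, by simp [j.2.2.2.1],
    Tab_snoc j.2.2.2.1 j.2.2.2.2.1 (h j).2, fun y hy => ?_⟩⟩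
  rcases List.mem_append.1 hy with hy | hy
  · exact j.2.2.2.2.2 y hy
  · rw [List.mem_singleton.1 hy]
    exact (h j).1.trans j.2.1.1.2.le

theorem solv_all (hC : CoreSt) (hN : NonresSt) (hp : PT p) {f : ∀ a, (ZMod (p a))[X]} (hf : DPT f) (h0 : ∀ a, f a ≠ 0) :
    Solv fun a l => Fac (f a) l := by
  obtain ⟨t, ht, hT⟩ := solv_table hC hN hp (un_natDegree hf)
  exact solv_fac hC hN hp hf h0 ht hT

end Crest.Agent.R312
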